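import Vale.Agent.P197.Dominated

/-!
The two fixed staircases are positive against every shape: strips, bands, and dominated shapes.
-/

namespace Vale.Agent.P197

open Finset MvPolynomial

/-- Three tableaux with columns of length one. -/
lemma pos_injective {X ι₁ ι₂ ι₃ : Type} [Fintype X] [DecidableEq X] [DecidableEq ι₁]
    [DecidableEq ι₂] [DecidableEq ι₃] (U : Tab X ι₁) (V : Tab X ι₂) (W : Tab X ι₃)
    (hU : Function.Injective U.col) (hV : Function.Injective V.col)
    (hW : Function.Injective W.col) : Pos U V W := by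
  have h : ∀ {κ : Type} [DecidableEq κ] (T : Tab X κ), Function.Injective T.col →
      T.cperm = {1} := by
    intro κ _ T hT
    exact Finset.eq_singleton_iff_unique_mem.mpr
      ⟨T.one_mem_cperm, fun c hc => Equiv.ext fun x => hT (Tab.mem_cperm.mp hc x)⟩
  have e : kpoly U V W = ∏ x, MvPolynomial.X (U.row x, V.row x, W.row x) := by
    simp [kpoly, h U hU, h V hV, h W hW]
  unfold Pos
  rw [e]
  exact Finset.prod_ne_zero_iff.mpr fun x _ => MvPolynomial.X_ne_zero _

/-- The strip, first tableau. -/
def stripU (r : ℕ) : Tab (Fin (r + 1)) ℕ where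
  col j := j
  row _ := 0
  inj x y h _ := Fin.ext h
  lt x := Finset.card_pos.mpr ⟨x, by rw [mem_filter]; exact ⟨mem_univ _, rfl⟩⟩

/-- The strip, second tableau. -/
def stripV (r : ℕ) : Tab (Fin (r + 1)) ℕ where
  col j := r - j
  row _ := 0
  inj x y h _ := Fin.ext (by have := x.2; have := y.2; omega)
  lt x := Finset.card_pos.mpr ⟨x, by rw [mem_filter]; exact ⟨mem_univ _, rfl⟩⟩

lemma stripU_len (r i : ℕ) (hi : i < r) : (stripU r).len i = 1 := by
  have : (univ.filter fun j : Fin (r + 1) => (stripU r).col j = i) = {⟨i, by omega⟩} := by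
    ext j
    rw [mem_filter]
    simp only [stripU, mem_univ, true_and, mem_singleton, Fin.ext_iff]
  rw [Tab.len, this, Finset.card_singleton]

lemma stripV_len (r q : ℕ) (hq : q < r) : (stripV r).len q = 1 := by
  have : (univ.filter fun j : Fin (r + 1) => (stripV r).col j = q) = {⟨r - q, by omega⟩} := by
    ext j
    have := j.2
    rw [mem_filter]
    simp only [stripV, mem_univ, true_and, mem_singleton, Fin.ext_iff]
    omega
  rw [Tab.len, this, Finset.card_singleton]

/-- Splitting the staircase into its last antidiagonal and a smaller staircase. -/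
def stripEquiv (r : ℕ) : Cell (r + 1) ≃ Fin (r + 1) ⊕ Cell r where
  toFun x :=
    if h : (x.1.1 : ℕ) + x.1.2 = r then Sum.inl x.1.1
    else Sum.inr ⟨(⟨x.1.1, by have := x.2; omega⟩, ⟨x.1.2, by have := x.2; omega⟩), by
      have := x.2; simp only; omega⟩
  invFun y := match y with
    | Sum.inl j => ⟨(j, ⟨r - (j : ℕ), by omega⟩), by have := j.2; simp only; omega⟩
    | Sum.inr x => ⟨(⟨x.1.1, by omega⟩, ⟨x.1.2, by omega⟩), by
        have := x.2; simp only; omega⟩
  left_inv x := by
    have := x.2
    by_cases h : (x.1.1 : ℕ) + x.1.2 = r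
    · simp only [dif_pos h]
      exact Subtype.ext (Prod.ext rfl (Fin.ext (by simp only; omega)))
    · simp only [dif_neg h]
  right_inv y := by
    rcases y with j | x
    · have := j.2
      have h : (j : ℕ) + (r - (j : ℕ)) = r := by omega
      simp only [dif_pos h]
    · have := x.2
      have h : ¬ (x.1.1 : ℕ) + x.1.2 = r := by omega
      simp only [dif_neg h]

lemma strip_uniq (r : ℕ) (Z : Finset (Fin (r + 1) ⊕ Cell r))
    (h₁ : ∀ q, (Z.filter fun x => ((stripU r).stack (rowT r)).col x = q).card =
      (stripU r).len q)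
    (h₂ : ∀ q, (Z.filter fun x => ((stripV r).stack (colT r)).col x = q).card =
      (stripV r).len q) :
    Z = (univ : Finset (Fin (r + 1))).map ⟨Sum.inl, Sum.inl_injective⟩ := by
  classical
  set O := (univ : Finset (Fin (r + 1))).map
    (⟨Sum.inl, Sum.inl_injective⟩ : Fin (r + 1) ↪ Fin (r + 1) ⊕ Cell r)
  set cU := ((stripU r).stack (rowT r)).col
  set cV := ((stripV r).stack (colT r)).col
  obtain ⟨hc, hu⟩ := sum_col_eq cU Z O fun q => by
    rw [h₁, Finset.filter_map, Finset.card_map]
    rfl
  obtain ⟨-, hv⟩ := sum_col_eq cV Z O fun q => by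
    rw [h₂, Finset.filter_map, Finset.card_map]
    rfl
  have hle : ∀ x : Fin (r + 1) ⊕ Cell r, cU x + cV x ≤ r := by
    rintro (j | c)
    · have := j.2
      show (j : ℕ) + (r - (j : ℕ)) ≤ r
      omega
    · have := c.2
      show (c.1.1 : ℕ) + c.1.2 ≤ r
      omega
  have hO : ∀ x ∈ O, cU x + cV x = r := by
    intro x hx
    obtain ⟨j, -, rfl⟩ := Finset.mem_map.mp hx
    have := j.2
    show (j : ℕ) + (r - (j : ℕ)) = r
    omega
  have hw : ∑ x ∈ Z, (cU x + cV x) = ∑ x ∈ Z, r := by
    rw [Finset.sum_add_distrib, hu, hv, ← Finset.sum_add_distrib, Finset.sum_congr rfl hO,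
      Finset.sum_const, Finset.sum_const, hc]
  have heq := (Finset.sum_eq_sum_iff_of_le fun x _ => hle x).mp hw
  have hsub : Z ⊆ O := by
    intro x hx
    rcases x with j | c
    · exact Finset.mem_map.mpr ⟨j, mem_univ j, rfl⟩
    · have := c.2
      have h : (c.1.1 : ℕ) + c.1.2 = r := heq _ hx
      omega
  exact Finset.eq_of_subset_of_card_le hsub hc.ge

/-- A tableau with prescribed column lengths, on `Fin n`. -/
def segFin {K n : ℕ} (d : Fin K → ℕ) (hn : n = (List.ofFn d).sum) : Tab (Fin n) (Fin K) :=
  (segAt (List.ofFn d) hn).recol (Fin.cast List.length_ofFn) (Fin.cast_injective List.length_ofFn)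

lemma segFin_len {K n : ℕ} (d : Fin K → ℕ) (hn : n = (List.ofFn d).sum) (q : Fin K) :
    (segFin d hn).len q = d q := by
  refine (Tab.len_recol (segAt (List.ofFn d) hn) (Fin.cast List.length_ofFn)
    (Fin.cast_injective List.length_ofFn) (Fin.cast List.length_ofFn.symm q)).trans ?_
  rw [segAt, Tab.len_map, len_segTab]
  simp

lemma col_injective_of_len {X ι : Type} [Fintype X] [DecidableEq X] [DecidableEq ι]
    (T : Tab X ι) (h : ∀ q, T.len q ≤ 1) : Function.Injective T.col := fun x y e => by
  refine T.inj x y e ?_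
  have h₁ := T.row_lt_len x
  have h₂ := T.row_lt_len y
  have := h (T.col x)
  have := h (T.col y)
  omega

lemma tri_add_le (t : ℕ) : ∀ j, tri (t + j) ≤ j * (t + j) + tri t
  | 0 => by simp
  | j + 1 => by
    have ih := tri_add_le t j
    rw [← Nat.add_assoc, tri]
    nlinarith

/-- Few positive columns and a small bounded total force dominance. -/
lemma dominates_of_small (m K : ℕ) (c : ℕ → ℕ) (hanti : ∀ i j, i ≤ j → c j ≤ c i)
    (hK : ∀ j, K ≤ j → c j = 0) (hsum : psum c K = tri m)
    (h₁ : ∑ q ∈ range K, min 1 (c q) < m) (h₄ : ∑ q ∈ range K, min 4 (c q) + 2 ≤ 2 * m) (j : ℕ) :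
    tri m ≤ psum c j + tri (m - j) := by
  rcases Nat.lt_or_ge j K with hjK | hjK
  swap
  · rw [psum_stable c K hK j hjK, hsum]
    exact Nat.le_add_right _ _
  have hsplit : ∀ (g : ℕ → ℕ) (a : ℕ), a ≤ K →
      ∑ q ∈ range a, g q + ∑ q ∈ Finset.Ico a K, g q = ∑ q ∈ range K, g q := fun g a ha =>
    Finset.sum_range_add_sum_Ico g ha
  rcases Nat.lt_or_ge (c j) 4 with hc | hc
  · have htail : ∀ q ∈ Finset.Ico j K, c q ≤ 3 * min 1 (c q) := by
      intro q hq
      have := hanti j q (Finset.mem_Ico.mp hq).1
      omega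
    have h₅ := Finset.sum_le_sum htail
    rw [← Finset.mul_sum] at h₅
    have h₆ := hsplit c j hjK.le
    rw [← psum, ← psum, hsum] at h₆
    rcases Nat.eq_zero_or_pos (c j) with h0 | hpos
    · have : ∑ q ∈ Finset.Ico j K, c q = 0 := Finset.sum_eq_zero fun q hq => by
        have := hanti j q (Finset.mem_Ico.mp hq).1
        omega
      omega
    · have hj1 : ∑ q ∈ range j, min 1 (c q) = j := by
        rw [Finset.sum_congr rfl (g := fun _ => 1) fun q hq => by
          have := hanti q j (mem_range.mp hq).le
          omega]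
        simp
      have h₇ := hsplit (fun q => min 1 (c q)) j hjK.le
      obtain ⟨u, hu⟩ : ∃ u, m - j = u + 1 := ⟨m - j - 1, by omega⟩
      have h₈ := two_tri (m - j)
      rw [hu] at h₈ ⊢
      have : 6 * u ≤ (u + 1) * (u + 1 + 1) := by
        rcases Nat.lt_or_ge u 3 with hu3 | hu3
        · interval_cases u <;> norm_num
        · nlinarith
      omega
  · have hex : ∃ a, c a < 4 := ⟨K, by rw [hK K le_rfl]; omega⟩
    set a := Nat.find hex
    have ha : c a < 4 := Nat.find_spec hex
    have haK : a ≤ K := Nat.find_min' hex (by rw [hK K le_rfl]; omega)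
    have hja : j < a := by
      by_contra h
      have := hanti a j (not_lt.mp h)
      omega
    have hbig : ∀ q ∈ range a, min 4 (c q) = 4 := fun q hq => by
      have := Nat.find_min hex (mem_range.mp hq)
      omega
    have e₁ := hsplit (fun q => min 4 (c q)) a haK
    rw [Finset.sum_congr rfl hbig, Finset.sum_const, card_range, smul_eq_mul,
      Finset.sum_congr rfl (g := c) (s₁ := Finset.Ico a K) (fun q hq => by
        have := hanti a q (Finset.mem_Ico.mp hq).1
        omega)] at e₁
    have e₂ := hsplit c a haK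
    rw [← psum, ← psum, hsum] at e₂
    have h₈ := two_tri m
    have e₁' : a * 4 + ∑ q ∈ Finset.Ico a K, c q = ∑ q ∈ range K, min 4 (c q) := e₁
    have hSa : a * m ≤ psum c a := by
      have ha2 : 2 * a + 1 ≤ m := by omega
      rcases Nat.lt_or_ge m 4 with hm | hm
      · interval_cases m <;> simp [tri] at e₂ ⊢ <;> omega
      · obtain ⟨u, rfl⟩ : ∃ u, m = u + 4 := ⟨m - 4, by omega⟩
        have : (2 * a + 1) * u ≤ (u + 4) * u := Nat.mul_le_mul_right u ha2
        nlinarith
    have hSj : j * m ≤ psum c j := by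
      by_cases hjm : m ≤ c j
      · calc j * m = ∑ _q ∈ range j, m := by simp
          _ ≤ psum c j := Finset.sum_le_sum fun q hq =>
              le_trans hjm (hanti q j (mem_range.mp hq).le)
      · have e₃ := Finset.sum_range_add_sum_Ico c hja.le
        rw [← psum, ← psum] at e₃
        have e₄ : ∑ q ∈ Finset.Ico j a, c q ≤ (a - j) * m := by
          refine le_trans (Finset.sum_le_card_nsmul _ _ m fun q hq => ?_) (le_of_eq (by simp))
          have := hanti j q (Finset.mem_Ico.mp hq).1
          omega
        rw [Nat.sub_mul] at e₄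
        have : j * m ≤ a * m := Nat.mul_le_mul_right m hja.le
        omega
    rcases Nat.le_total j m with hjm | hjm
    · have h9 := tri_add_le (m - j) j
      rw [Nat.sub_add_cancel hjm] at h9
      omega
    · have h9 := tri_add_le 0 m
      rw [Nat.zero_add] at h9
      have : m * m ≤ j * m := Nat.mul_le_mul_right m hjm
      have h10 : tri 0 = 0 := rfl
      omega

/-- Shapes with few columns and a small bounded total. -/
lemma pos_small (m K : ℕ) (c : Fin K → ℕ) (hc : ∑ q, c q = tri m)
    (h₁ : ∑ q, min 1 (c q) < m) (h₄ : ∑ q, min 4 (c q) + 2 ≤ 2 * m) :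
    ∃ W : Tab (Cell m) (Fin K), (∀ q, W.len q = c q) ∧ Pos (rowT m) (colT m) W := by
  classical
  set σ : Equiv.Perm (Fin K) := Fin.revPerm.trans (Tuple.sort c) with hσ
  have hmono : ∀ i j : Fin K, i ≤ j → c (σ j) ≤ c (σ i) := by
    intro i j hij
    exact Tuple.monotone_sort c (Fin.rev_le_rev.mpr hij)
  set cN : ℕ → ℕ := fun j => if h : j < K then c (σ ⟨j, h⟩) else 0 with hcN
  have hval : ∀ (g : ℕ → ℕ), ∑ q ∈ range K, g (cN q) = ∑ q, g (c q) := by
    intro g
    rw [← Fin.sum_univ_eq_sum_range (fun q => g (cN q)), ← Equiv.sum_comp σ fun q => g (c q)]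
    exact Finset.sum_congr rfl fun q _ => by simp [hcN, q.2]
  have hanti : ∀ i j, i ≤ j → cN j ≤ cN i := by
    intro i j hij
    simp only [hcN]
    split_ifs with hj hi
    · exact hmono _ _ hij
    · omega
    · exact Nat.zero_le _
    · exact le_rfl
  have hK : ∀ j, K ≤ j → cN j = 0 := fun j hj => by simp [hcN, not_lt.mpr hj]
  have hsum : psum cN K = tri m := (hval id).trans hc
  obtain ⟨W, hlen, hrig⟩ := exists_rigid m cN K hanti hK hsum
    (dominates_of_small m K cN hanti hK hsum (by rw [hval (min 1)]; exact h₁)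
      (by rw [hval (min 4)]; exact h₄))
  obtain ⟨φ, hφ⟩ := pos_dominated m W hrig
  have hcol : ∀ x, (W.map φ).col x < K := by
    intro x
    by_contra h
    have := (W.map φ).row_lt_len x
    rw [Tab.len_map, hlen, hK _ (not_lt.mp h)] at this
    omega
  set W' : Tab (Cell m) (Fin K) :=
    { col := fun x => σ ⟨(W.map φ).col x, hcol x⟩
      row := (W.map φ).row
      inj := fun x y h₁ h₂ => (W.map φ).inj x y (congrArg Fin.val (σ.injective h₁)) h₂
      lt := fun x => by
        refine lt_of_lt_of_le ((W.map φ).lt x) (le_of_eq ?_)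
        simp [σ.injective.eq_iff, Fin.ext_iff] } with hW'
  refine ⟨W', fun q => ?_, hφ.congr (fun _ _ => Iff.rfl) (fun _ _ => Iff.rfl) (fun x y => ?_)⟩
  · have e : c q = cN (σ.symm q) := by simp [hcN, (σ.symm q).2]
    rw [e, ← hlen, ← Tab.len_map W φ]
    simp only [Tab.len]
    refine congrArg Finset.card (Finset.filter_congr fun x _ => ?_)
    show σ ⟨(W.map φ).col x, hcol x⟩ = q ↔ _
    rw [← Equiv.eq_symm_apply, Fin.ext_iff]
  · show σ ⟨(W.map φ).col x, hcol x⟩ = σ ⟨(W.map φ).col y, hcol y⟩ ↔ _
    rw [σ.injective.eq_iff, Fin.ext_iff]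

/-- **Two fixed staircases against every shape.** -/
theorem pos_all : ∀ (m K : ℕ) (c : Fin K → ℕ), ∑ q, c q = tri m →
    ∃ W : Tab (Cell m) (Fin K), (∀ q, W.len q = c q) ∧ Pos (rowT m) (colT m) W
  | 0, K, c, hc => by
    haveI : IsEmpty (Cell 0) := ⟨fun x => x.1.1.elim0⟩
    refine ⟨{ col := fun x => isEmptyElim x, row := fun x => isEmptyElim x,
              inj := fun x => isEmptyElim x, lt := fun x => isEmptyElim x }, fun q => ?_,
      pos_isEmpty _ _ _⟩
    have : c q ≤ ∑ q, c q := Finset.single_le_sum (fun q _ => Nat.zero_le (c q)) (mem_univ q)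
    rw [hc, tri] at this
    simp only [Tab.len, Finset.univ_eq_empty, Finset.filter_empty, Finset.card_empty]
    omega
  | r + 1, K, c, hc => by
    by_cases h₁ : r + 1 ≤ ∑ q, min 1 (c q)
    · obtain ⟨d, hd, hds⟩ := exists_between_sum K (fun _ => 0) (fun q => min 1 (c q)) (r + 1)
        (fun q => Nat.zero_le _) (by simp) h₁
      have hd' : ∀ q, d q ≤ c q ∧ d q ≤ 1 := fun q => by have := hd q; omega
      obtain ⟨W', hW', hP'⟩ := pos_all r K (fun q => c q - d q) (by
        have h : ∑ q, (c q - d q) + ∑ q, d q = ∑ q, c q := by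
          rw [← Finset.sum_add_distrib]
          exact Finset.sum_congr rfl fun q _ => Nat.sub_add_cancel (hd' q).1
        rw [hds, hc, tri] at h
        omega)
      have hn : r + 1 = (List.ofFn d).sum := by rw [List.sum_ofFn, hds]
      set A₃ := segFin d hn
      have hA₃ : ∀ q, A₃.len q = d q := segFin_len d hn
      have hO : Pos (stripU r) (stripV r) A₃ := pos_injective _ _ _
        (fun x y e => Fin.ext e) (fun x y e => (stripV r).inj x y e rfl)
        (col_injective_of_len A₃ fun q => by rw [hA₃]; exact (hd' q).2)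
      have hglue := Pos.glue (stripU r) (rowT r) (stripV r) (colT r) A₃ W' 1
        (fun o => Nat.one_pos) (fun i => stripU_len r _ i.1.1.2)
        (fun o => Nat.one_pos) (fun i => stripV_len r _ i.1.2.2)
        (strip_uniq r) hO hP'
      refine ⟨(A₃.stack W').map (stripEquiv r), fun q => ?_, ?_⟩
      · rw [Tab.len_map, Tab.len_stack, hA₃, hW']
        have := hd' q
        omega
      · have hU : ∀ y, (rowT (r + 1)).col ((stripEquiv r).symm y) =
            ((stripU r).stack (rowT r)).col y := by
          rintro (j | x) <;> rfl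
        have hV : ∀ y, (colT (r + 1)).col ((stripEquiv r).symm y) =
            ((stripV r).stack (colT r)).col y := by
          rintro (j | x) <;> rfl
        refine (hglue.map (stripEquiv r)).congr (fun x y => ?_) (fun x y => ?_)
          (fun x y => Iff.rfl)
        · simp only [Tab.map, Function.comp_apply, ← hU, Equiv.symm_apply_apply]
        · simp only [Tab.map, Function.comp_apply, ← hV, Equiv.symm_apply_apply]
    by_cases h₄ : 2 * r + 1 ≤ ∑ q, min 4 (c q)
    · obtain ⟨d, hd, hds⟩ := exists_between_sum K (fun _ => 0) (fun q => min 4 (c q))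
        (2 * r + 1) (fun q => Nat.zero_le _) (by simp) h₄
      have hd' : ∀ q, d q ≤ c q ∧ d q ≤ 4 := fun q => by have := hd q; omega
      obtain ⟨W', hW', hP'⟩ := pos_all (r - 1) K (fun q => c q - d q) (by
        have h : ∑ q, (c q - d q) + ∑ q, d q = ∑ q, c q := by
          rw [← Finset.sum_add_distrib]
          exact Finset.sum_congr rfl fun q _ => Nat.sub_add_cancel (hd' q).1
        rw [hds, hc, tri_step] at h
        omega)
      set L := List.ofFn d with hLdef
      have hn : 2 * r + 1 = L.sum := by rw [hLdef, List.sum_ofFn, hds]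
      have hL : ∀ h ∈ L, h ≤ 4 := by
        intro h hh
        obtain ⟨q, rfl⟩ := List.mem_ofFn.mp hh
        exact (hd' q).2
      have hO := (pos_path r (bandU r) (bandV r) (fun x y => Iff.rfl) (fun x y => by
        have := x.2; have := y.2
        simp only [bandV]; omega) L hL hn).congr
        (W' := segFin d hn) (fun _ _ => Iff.rfl) (fun _ _ => Iff.rfl)
        (fun x y => (Fin.cast_injective List.length_ofFn).eq_iff)
      have hglue := Pos.glue (bandU r) (rowT (r - 1)) (bandV r) (colT (r - 1)) (segFin d hn) W' 2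
        (fun o => Nat.mod_lt _ (by omega))
        (fun i => bandU_len r _ (by
          show (i.1.1 : ℕ) < r
          omega))
        (fun o => Nat.mod_lt _ (by omega))
        (fun i => bandV_len r _ (by
          show (i.1.2 : ℕ) < r
          omega))
        (band_uniq r) hO hP'
      refine ⟨((segFin d hn).stack W').map (bandEquiv r), fun q => ?_, ?_⟩
      · rw [Tab.len_map, Tab.len_stack, segFin_len, hW']
        have := hd' q
        omega
      · have hU : ∀ y, (rowT (r + 1)).col ((bandEquiv r).symm y) =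
            ((bandU r).stack (rowT (r - 1))).col y := by
          rintro (j | x) <;> rfl
        have hV : ∀ y, (colT (r + 1)).col ((bandEquiv r).symm y) =
            ((bandV r).stack (colT (r - 1))).col y := by
          rintro (j | x) <;> rfl
        refine (hglue.map (bandEquiv r)).congr (fun x y => ?_) (fun x y => ?_)
          (fun x y => Iff.rfl)
        · simp only [Tab.map, Function.comp_apply, ← hU, Equiv.symm_apply_apply]
        · simp only [Tab.map, Function.comp_apply, ← hV, Equiv.symm_apply_apply]
    · exact pos_small (r + 1) K c hc (not_le.mp h₁) (by omega)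

theorem kronecker_staircase_pos_all (m : ℕ) (ν : YoungDiagram)
    (hcard : ν.cells.card = m * (m + 1) / 2) :
    0 < kronecker (m * (m + 1) / 2) (staircase m) (staircase m) ν := by
  have htri : tri m = m * (m + 1) / 2 := by rw [← two_tri m]; omega
  have hn : Fintype.card (Cell m) = m * (m + 1) / 2 := by rw [card_cell, htri]
  obtain ⟨W, hW, hP⟩ := pos_all m (ν.rowLen 0) (fun q => ν.colLen q)
    (by rw [← card_eq_sum_colLen, hcard, htri])
  obtain ⟨a, ha⟩ := exists_filling (rowT m) id Function.injective_id (staircase m)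
    (fun x => (mem_staircase m _).mpr (by
      have := x.2
      show m - 1 - ((x.1.1 : ℕ) + x.1.2) + (x.1.1 : ℕ) < m
      omega)) (by rw [card_cell, card_staircase])
  obtain ⟨b, hb⟩ := exists_filling (colT m) id Function.injective_id (staircase m)
    (fun x => (mem_staircase m _).mpr (by
      have := x.2
      show m - 1 - ((x.1.1 : ℕ) + x.1.2) + (x.1.2 : ℕ) < m
      omega)) (by rw [card_cell, card_staircase])
  obtain ⟨c, hc⟩ := exists_filling W (fun q => (q : ℕ)) Fin.val_injective ν
    (fun x => (YoungDiagram.mem_iff_lt_colLen.mpr (by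
      have := W.row_lt_len x
      rw [hW] at this
      exact this))) (by rw [card_cell, hcard, htri])
  have hP' : Pos (tabOf _ a) (tabOf _ b) (tabOf _ c) := by
    refine hP.congr (fun x y => ?_) (fun x y => ?_) (fun x y => ?_)
    · simp only [tabOf, ha, id]
    · simp only [tabOf, hb, id]
    · simp only [tabOf, hc, Fin.val_inj]
  exact kronecker_pos_of_cell hn a b c ((pos_iff _ _ _).mp hP')

end Vale.Agent.P197
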