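import Mathlib

/-!
Column structures (tableaux up to the order of columns) on a finite set, their polytabloids,
and the trilinear Kronecker polynomial.
-/

namespace Vale.Agent.P197

open Finset MvPolynomial

/-- A tableau on `X`: every letter gets a column and a row, the rows of the letters of one column
being exactly `0, ..., len - 1`. -/
structure Tab (X ι : Type) [Fintype X] [DecidableEq ι] where
  col : X → ι
  row : X → ℕ
  inj : ∀ x y, col x = col y → row x = row y → x = y
  lt : ∀ x, row x < (univ.filter fun y => col y = col x).card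

variable {X Y ι κ α : Type} [Fintype X] [DecidableEq X] [Fintype Y] [DecidableEq Y]
  [DecidableEq ι] [DecidableEq κ]

namespace Tab

/-- Length of a column. -/
def len (T : Tab X ι) (q : ι) : ℕ := (univ.filter fun y => T.col y = q).card

lemma row_lt_len (T : Tab X ι) (x : X) : T.row x < T.len (T.col x) := T.lt x

/-- The column group. -/
def cperm (T : Tab X ι) : Finset (Equiv.Perm X) := univ.filter fun c => ∀ x, T.col (c x) = T.col x

@[simp] lemma mem_cperm {T : Tab X ι} {c : Equiv.Perm X} :
    c ∈ T.cperm ↔ ∀ x, T.col (c x) = T.col x := by simp [cperm]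

lemma one_mem_cperm (T : Tab X ι) : 1 ∈ T.cperm := by simp

lemma mul_mem_cperm {T : Tab X ι} {c d : Equiv.Perm X} (hc : c ∈ T.cperm) (hd : d ∈ T.cperm) :
    c * d ∈ T.cperm := by
  simp only [mem_cperm] at *
  intro x
  simp [Equiv.Perm.mul_apply, hc, hd]

lemma inv_mem_cperm {T : Tab X ι} {c : Equiv.Perm X} (hc : c ∈ T.cperm) :
    c⁻¹ ∈ T.cperm := by
  simp only [mem_cperm] at *
  intro x
  conv_rhs => rw [← Equiv.apply_symm_apply c x]
  exact (hc _).symm

/-- Relabelling of the letters along an equivalence. -/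
def map (T : Tab X ι) (φ : Y ≃ X) : Tab Y ι where
  col := T.col ∘ φ
  row := T.row ∘ φ
  inj x y h₁ h₂ := φ.injective (T.inj _ _ h₁ h₂)
  lt x := by
    refine lt_of_lt_of_le (T.lt (φ x)) (le_of_eq ?_)
    refine Finset.card_equiv φ.symm ?_
    intro i
    simp

end Tab

/-- The sign of a permutation as a rational number. -/
def sg (c : Equiv.Perm X) : ℚ := ((Equiv.Perm.sign c : ℤ) : ℚ)

@[simp] lemma sg_one : sg (1 : Equiv.Perm X) = 1 := by simp [sg]

lemma sg_mul (c d : Equiv.Perm X) : sg (c * d) = sg c * sg d := by simp [sg]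

@[simp] lemma sg_inv (c : Equiv.Perm X) : sg c⁻¹ = sg c := by simp [sg]

lemma sg_mul_self (c : Equiv.Perm X) : sg c * sg c = 1 := by
  rcases Int.units_eq_one_or (Equiv.Perm.sign c) with h | h <;> simp [sg, h]

lemma sg_ne_zero (c : Equiv.Perm X) : sg c ≠ 0 := by
  intro h
  simpa [h] using sg_mul_self c

/-- The polytabloid of `T`, as a function on row assignments. -/
def Tab.e (T : Tab X ι) (f : X → ℕ) : ℚ :=
  ∑ c ∈ T.cperm, if f = T.row ∘ c then sg c else 0

/-- Multiplicity function of a tuple. -/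
noncomputable def mon (f : X → α) : α →₀ ℕ := ∑ x, Finsupp.single (f x) 1

lemma mon_apply [DecidableEq α] (f : X → α) (a : α) :
    mon f a = (univ.filter fun x => f x = a).card := by
  classical
  rw [mon, Finsupp.finset_sum_apply, Finset.card_filter]
  exact Finset.sum_congr rfl fun x _ => by rw [Finsupp.single_apply]

lemma mon_comp (f : X → α) (s : Equiv.Perm X) : mon (f ∘ s) = mon f :=
  Equiv.sum_comp s (fun x => Finsupp.single (f x) 1)

lemma exists_perm_of_mon_eq {f g : X → α} (h : mon g = mon f) :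
    ∃ s : Equiv.Perm X, g = f ∘ s := by
  classical
  have hc : ∀ a, Fintype.card {x // g x = a} = Fintype.card {x // f x = a} := by
    intro a
    rw [Fintype.card_subtype, Fintype.card_subtype]
    calc (univ.filter fun x => g x = a).card = mon g a := (mon_apply g a).symm
      _ = mon f a := by rw [h]
      _ = _ := mon_apply f a
  refine ⟨Equiv.ofFiberEquiv fun a => Fintype.equivOfCardEq (hc a), ?_⟩
  funext x
  exact (Equiv.ofFiberEquiv_map (fun a => Fintype.equivOfCardEq (hc a)) x).symm

lemma monomial_mon (f : X → α) :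
    (∏ x, (MvPolynomial.X (f x) : MvPolynomial α ℚ)) = monomial (mon f) 1 := by
  unfold mon
  exact (monomial_sum_one univ fun x => Finsupp.single (f x) 1).symm

section Trilinear

variable {ι₁ ι₂ ι₃ : Type} [DecidableEq ι₁] [DecidableEq ι₂] [DecidableEq ι₃]
  (U : Tab X ι₁) (V : Tab X ι₂) (W : Tab X ι₃)

/-- The Kronecker polynomial of three tableaux on the same letters. -/
noncomputable def kpoly : MvPolynomial (ℕ × ℕ × ℕ) ℚ :=
  ∑ p ∈ U.cperm ×ˢ V.cperm ×ˢ W.cperm,
    C (sg p.1 * sg p.2.1 * sg p.2.2) *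
      ∏ x, MvPolynomial.X (U.row (p.1 x), V.row (p.2.1 x), W.row (p.2.2 x))

/-- The three tableaux have a nonzero Kronecker polynomial. -/
def Pos : Prop := kpoly U V W ≠ 0

/-- The symmetrised value of the three polytabloids at a triple of row assignments. -/
def tsum (a b d : X → ℕ) : ℚ :=
  ∑ s : Equiv.Perm X, U.e (a ∘ s) * V.e (b ∘ s) * W.e (d ∘ s)

lemma tsum_eq (a b d : X → ℕ) :
    tsum U V W a b d = ∑ p ∈ U.cperm ×ˢ V.cperm ×ˢ W.cperm,
      (sg p.1 * sg p.2.1 * sg p.2.2) *
        ((univ.filter fun s : Equiv.Perm X => (fun x => (a x, b x, d x)) ∘ s =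
          fun x => (U.row (p.1 x), V.row (p.2.1 x), W.row (p.2.2 x))).card : ℚ) := by
  have key : ∀ s : Equiv.Perm X, U.e (a ∘ s) * V.e (b ∘ s) * W.e (d ∘ s) =
      ∑ p ∈ U.cperm ×ˢ V.cperm ×ˢ W.cperm, (sg p.1 * sg p.2.1 * sg p.2.2) *
        (if (fun x => (a x, b x, d x)) ∘ s =
          (fun x => (U.row (p.1 x), V.row (p.2.1 x), W.row (p.2.2 x))) then (1 : ℚ) else 0) := by
    intro s
    simp only [Tab.e, Finset.sum_product, mul_assoc, Finset.sum_mul]
    refine Finset.sum_congr rfl fun c₁ _ => ?_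
    rw [Finset.mul_sum]
    refine Finset.sum_congr rfl fun c₂ _ => ?_
    rw [Finset.mul_sum, Finset.mul_sum]
    refine Finset.sum_congr rfl fun c₃ _ => ?_
    simp only [funext_iff, Function.comp_apply, Prod.mk.injEq, forall_and]
    split_ifs <;> simp_all
  simp only [tsum, key]
  rw [Finset.sum_comm]
  refine Finset.sum_congr rfl fun p _ => ?_
  rw [← Finset.mul_sum]
  congr 1
  simp [Finset.sum_boole]

lemma coeff_kpoly (m : ℕ × ℕ × ℕ →₀ ℕ) :
    coeff m (kpoly U V W) = ∑ p ∈ U.cperm ×ˢ V.cperm ×ˢ W.cperm,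
      if mon (fun x => (U.row (p.1 x), V.row (p.2.1 x), W.row (p.2.2 x))) = m
        then sg p.1 * sg p.2.1 * sg p.2.2 else 0 := by
  simp only [kpoly, monomial_mon, C_mul_monomial, mul_one, coeff_sum, coeff_monomial]

lemma tsum_eq_coeff (a b d : X → ℕ) :
    tsum U V W a b d =
      ((univ.filter fun s : Equiv.Perm X =>
        (fun x => (a x, b x, d x)) ∘ s = fun x => (a x, b x, d x)).card : ℚ) *
        coeff (mon fun x => (a x, b x, d x)) (kpoly U V W) := by
  rw [tsum_eq, coeff_kpoly, Finset.mul_sum]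
  refine Finset.sum_congr rfl fun p _ => ?_
  set f := fun x => (a x, b x, d x) with hf
  set g := fun x => (U.row (p.1 x), V.row (p.2.1 x), W.row (p.2.2 x)) with hg
  by_cases h : mon g = mon f
  · obtain ⟨s₀, hs₀⟩ := exists_perm_of_mon_eq h
    rw [if_pos h, mul_comm]
    congr 1
    norm_cast
    refine Finset.card_equiv (Equiv.mulRight s₀⁻¹) ?_
    intro s
    simp only [mem_filter, mem_univ, true_and, Equiv.coe_mulRight, Equiv.Perm.coe_mul]
    rw [hs₀, ← Function.comp_assoc]
    constructor
    · intro hs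
      rw [hs, Function.comp_assoc]
      simp [funext_iff]
    · intro hs
      funext x
      have := congrFun hs (s₀ x)
      simpa using this
  · rw [if_neg h, mul_zero]
    have : ∀ s : Equiv.Perm X, f ∘ s ≠ g := fun s hs => h (by rw [← hs, mon_comp])
    simp [Finset.filter_false_of_mem (fun s _ => this s)]

theorem pos_iff : Pos U V W ↔ ∃ a b d, tsum U V W a b d ≠ 0 := by
  constructor
  · intro h
    obtain ⟨m, hm⟩ := MvPolynomial.ne_zero_iff.mp h
    rw [coeff_kpoly] at hm
    obtain ⟨p, hp, hp'⟩ := Finset.exists_ne_zero_of_sum_ne_zero hm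
    have hpm : mon (fun x => (U.row (p.1 x), V.row (p.2.1 x), W.row (p.2.2 x))) = m := by
      by_contra h'
      exact hp' (if_neg h')
    refine ⟨fun x => U.row (p.1 x), fun x => V.row (p.2.1 x), fun x => W.row (p.2.2 x), ?_⟩
    rw [tsum_eq_coeff]
    refine mul_ne_zero ?_ ?_
    · exact_mod_cast (Finset.card_pos.mpr ⟨1, by simp⟩).ne'
    · rw [hpm, coeff_kpoly]
      exact hm
  · rintro ⟨a, b, d, h⟩ h0
    refine h ?_
    rw [tsum_eq_coeff, h0]
    simp

end Trilinear

section Relabel

variable {ι₁ ι₂ ι₃ : Type} [DecidableEq ι₁] [DecidableEq ι₂] [DecidableEq ι₃]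

lemma e_map (T : Tab X ι) (φ : Y ≃ X) (f : Y → ℕ) :
    (T.map φ).e f = T.e (f ∘ φ.symm) := by
  refine Finset.sum_equiv φ.permCongr ?_ ?_
  · intro c
    simp only [Tab.mem_cperm, Tab.map, Function.comp_apply, Equiv.permCongr_apply]
    constructor
    · intro h x
      simpa using h (φ.symm x)
    · intro h y
      simpa using h (φ y)
  · intro c _
    have h₁ : sg (φ.permCongr c) = sg c := by simp [sg]
    rw [h₁]
    refine if_congr ?_ rfl rfl
    simp only [Tab.map, funext_iff, Function.comp_apply, Equiv.permCongr_apply]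
    constructor
    · intro h x
      simpa using h (φ.symm x)
    · intro h y
      simpa using h (φ y)

theorem Pos.map {U : Tab X ι₁} {V : Tab X ι₂} {W : Tab X ι₃} (h : Pos U V W) (φ : Y ≃ X) :
    Pos (U.map φ) (V.map φ) (W.map φ) := by
  rw [pos_iff] at h ⊢
  obtain ⟨a, b, d, h⟩ := h
  refine ⟨a ∘ φ, b ∘ φ, d ∘ φ, ?_⟩
  convert h using 1
  refine Fintype.sum_equiv φ.permCongr _ _ ?_
  intro s
  simp only [e_map]
  congr 2 <;> · congr 1; funext x; simp [Equiv.permCongr_apply]

end Relabel

end Vale.Agent.P197
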