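import Mathlib

/-!
Specht modules, Kronecker coefficients and the staircase diagram.

A filling of a Young diagram `μ` by `Fin n` is a bijection `t : Fin n ≃ μ.cells`; the first
coordinate of a cell is its row and the second one its column. A tabloid is recorded as the
function sending a letter to its row.
-/

namespace Vale.Agent.P197

open scoped TensorProduct

/-- The column group of a filling. -/
def colGroup {n : ℕ} (μ : YoungDiagram) (t : Fin n ≃ μ.cells) :
    Finset (Equiv.Perm (Fin n)) :=
  Finset.univ.filter fun q => ∀ x, (t (q x)).1.2 = (t x).1.2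

/-- The polytabloid of a filling. -/
noncomputable def polytabloid {n : ℕ} (μ : YoungDiagram) (t : Fin n ≃ μ.cells) :
    (Fin n → ℕ) → ℂ :=
  fun f => ∑ q ∈ colGroup μ t,
    if f = (fun x => (t (q x)).1.1) then ((Equiv.Perm.sign q : ℤ) : ℂ) else 0

/-- Letters are permuted by acting on the functions of row assignments. -/
noncomputable def tabloidRep (n : ℕ) :
    Representation ℂ (Equiv.Perm (Fin n)) ((Fin n → ℕ) → ℂ) where
  toFun σ := LinearMap.funLeft ℂ ℂ fun f : Fin n → ℕ => f ∘ σ
  map_one' := rfl
  map_mul' _ _ := rfl

/-- The Specht module: the span of the polytabloids of all fillings. -/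
noncomputable def spechtSubmodule (n : ℕ) (μ : YoungDiagram) :
    Submodule ℂ ((Fin n → ℕ) → ℂ) :=
  Submodule.span ℂ (Set.range (polytabloid (n := n) μ))

lemma tabloidRep_polytabloid {n : ℕ} (μ : YoungDiagram) (t : Fin n ≃ μ.cells)
    (σ : Equiv.Perm (Fin n)) :
    tabloidRep n σ (polytabloid μ t) = polytabloid μ (σ.symm.trans t) := by
  funext f
  show polytabloid μ t (f ∘ σ) = _
  refine Finset.sum_equiv σ.permCongr ?_ ?_
  · intro q
    unfold colGroup
    rw [Finset.mem_filter, Finset.mem_filter]
    simp only [Finset.mem_univ, true_and, Equiv.trans_apply, Equiv.permCongr_apply,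
      Equiv.symm_apply_apply]
    exact ⟨fun h x => h _, fun h x => by simpa using h (σ x)⟩
  · intro q _
    rw [Equiv.Perm.sign_permCongr]
    refine if_congr ?_ rfl rfl
    simp only [funext_iff, Function.comp_apply, Equiv.trans_apply, Equiv.permCongr_apply,
      Equiv.symm_apply_apply]
    exact ⟨fun h x => by simpa using h (σ.symm x), fun h x => by simpa using h (σ x)⟩

lemma spechtSubmodule_invariant {n : ℕ} (μ : YoungDiagram) (σ : Equiv.Perm (Fin n))
    (v : (Fin n → ℕ) → ℂ) (hv : v ∈ spechtSubmodule n μ) :
    tabloidRep n σ v ∈ spechtSubmodule n μ := by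
  induction hv using Submodule.span_induction with
  | mem x hx =>
    obtain ⟨t, rfl⟩ := hx
    rw [tabloidRep_polytabloid]
    exact Submodule.subset_span ⟨_, rfl⟩
  | zero => simp
  | add x y _ _ hx hy => simpa using add_mem hx hy
  | smul a x _ hx => simpa using Submodule.smul_mem _ a hx

/-- The representation of the symmetric group on the Specht module. -/
noncomputable def spechtRep (n : ℕ) (μ : YoungDiagram) :
    Representation ℂ (Equiv.Perm (Fin n)) (spechtSubmodule n μ) :=
  (Subrepresentation.mk (ρ := tabloidRep n) (spechtSubmodule n μ)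
    (spechtSubmodule_invariant μ)).toRepresentation

/-- The dimension of the space of equivariant maps from `ρ` to the tensor product `σ ⊗ τ`. -/
noncomputable def homTensorDim {G U V W : Type} [Group G] [AddCommGroup U] [AddCommGroup V]
    [AddCommGroup W] [Module ℂ U] [Module ℂ V] [Module ℂ W] (ρ : Representation ℂ G U)
    (σ : Representation ℂ G V) (τ : Representation ℂ G W) : ℕ :=
  Module.finrank ℂ (ρ.IntertwiningMap (σ.tprod τ))

/-- The Kronecker coefficient: the dimension of the space of equivariant maps from the Specht
module of `ν` to the tensor product of those of `l` and `μ`. -/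
noncomputable def kronecker (n : ℕ) (l μ ν : YoungDiagram) : ℕ :=
  homTensorDim (spechtRep n ν) (spechtRep n l) (spechtRep n μ)

lemma staircase_isLowerSet (m : ℕ) :
    IsLowerSet ((((Finset.range m) ×ˢ (Finset.range m)).filter fun c => c.1 + c.2 < m :
      Finset (ℕ × ℕ)) : Set (ℕ × ℕ)) := by
  rintro ⟨i, j⟩ ⟨a, b⟩ ⟨ha : a ≤ i, hb : b ≤ j⟩ h
  simp only [Finset.mem_coe, Finset.mem_filter, Finset.mem_product, Finset.mem_range] at h ⊢
  omega

/-- The staircase diagram with row lengths `m, m - 1, ..., 1`. -/
def staircase (m : ℕ) : YoungDiagram where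
  cells := ((Finset.range m) ×ˢ (Finset.range m)).filter fun c => c.1 + c.2 < m
  isLowerSet := staircase_isLowerSet m

end Vale.Agent.P197
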