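import Vale.Agent.P197.Filling

/-!
A nonzero symmetrised value gives a positive Kronecker coefficient.
-/

namespace Vale.Agent.P197

open Finset
open scoped TensorProduct

variable {n : ℕ}

lemma polytabloid_eq (μ : YoungDiagram) (t : Fin n ≃ μ.cells) (f : Fin n → ℕ) :
    polytabloid μ t f = ((tabOf μ t).e f : ℂ) := by
  rw [polytabloid, Tab.e, Rat.cast_sum]
  refine Finset.sum_congr ?_ fun q _ => ?_
  · ext q
    rw [colGroup, mem_filter, Tab.mem_cperm]
    simp [tabOf]
  · split_ifs with h₁ h₂ h₂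
    · simp [sg]
    · exact absurd h₁ h₂
    · exact absurd h₂ h₁
    · simp

lemma specht_finite (n : ℕ) (μ : YoungDiagram) :
    Module.Finite ℂ (spechtSubmodule n μ) :=
  Module.Finite.span_of_finite ℂ (Set.finite_range _)

/-- The translate of a polytabloid, as a vector of the Specht module. -/
noncomputable def polyVec (μ : YoungDiagram) (t : Fin n ≃ μ.cells) (σ : Equiv.Perm (Fin n)) :
    spechtSubmodule n μ :=
  spechtRep n μ σ ⟨polytabloid μ t, Submodule.subset_span ⟨t, rfl⟩⟩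

lemma polyVec_apply (μ : YoungDiagram) (t : Fin n ≃ μ.cells) (σ : Equiv.Perm (Fin n))
    (f : Fin n → ℕ) : (polyVec μ t σ : (Fin n → ℕ) → ℂ) f = ((tabOf μ t).e (f ∘ σ) : ℂ) :=
  polytabloid_eq μ t (f ∘ σ)

lemma spechtRep_polyVec (μ : YoungDiagram) (t : Fin n ≃ μ.cells) (g σ : Equiv.Perm (Fin n)) :
    spechtRep n μ g (polyVec μ t σ) = polyVec μ t (g * σ) := by
  rw [polyVec, polyVec, map_mul]
  rfl

variable {l μ ν : YoungDiagram} (a : Fin n ≃ l.cells) (b : Fin n ≃ μ.cells)
  (c : Fin n ≃ ν.cells)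

/-- The pairing with a translate of a polytabloid. -/
noncomputable def pairing (σ : Equiv.Perm (Fin n)) : spechtSubmodule n ν →ₗ[ℂ] ℂ where
  toFun w := ∑ f ∈ rowSupp ν c, (w : (Fin n → ℕ) → ℂ) f * ((tabOf ν c).e (f ∘ σ) : ℂ)
  map_add' v w := by simp [add_mul, Finset.sum_add_distrib]
  map_smul' r w := by simp [Finset.mul_sum, mul_assoc]

lemma pairing_equivariant (g σ : Equiv.Perm (Fin n)) (w : spechtSubmodule n ν) :
    pairing c σ (spechtRep n ν g w) = pairing c (g⁻¹ * σ) w := by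
  refine Finset.sum_nbij' (fun f => f ∘ g) (fun f => f ∘ g.symm) ?_ ?_ ?_ ?_ ?_
  · intro f hf
    obtain ⟨s, -, rfl⟩ := mem_image.mp hf
    exact mem_image.mpr ⟨s * g, mem_univ _, rfl⟩
  · intro f hf
    obtain ⟨s, -, rfl⟩ := mem_image.mp hf
    exact mem_image.mpr ⟨s * g⁻¹, mem_univ _, rfl⟩
  · intro f _; funext x; simp
  · intro f _; funext x; simp
  · intro f _
    have e : (f ∘ ⇑g) ∘ ⇑(g⁻¹ * σ) = f ∘ ⇑σ := by funext x; simp
    show (w : (Fin n → ℕ) → ℂ) (f ∘ g) * _ = _
    rw [e]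

/-- The equivariant map attached to three fillings. -/
noncomputable def kronMap :
    (spechtRep n ν).IntertwiningMap ((spechtRep n l).tprod (spechtRep n μ)) :=
  LinearMap.intertwiningMap_of_isIntertwiningMap (spechtRep n ν)
    ((spechtRep n l).tprod (spechtRep n μ))
    (∑ σ : Equiv.Perm (Fin n), (pairing c σ).smulRight (polyVec l a σ ⊗ₜ[ℂ] polyVec μ b σ))
    (by
      intro g w
      simp only [LinearMap.sum_apply, LinearMap.smulRight_apply, map_sum, map_smul,
        Representation.tprod_apply, TensorProduct.map_tmul, spechtRep_polyVec,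
        pairing_equivariant]
      rw [← Equiv.sum_comp (Equiv.mulLeft g)]
      simp)

/-- Evaluation of a tensor at two row assignments. -/
noncomputable def evalPair (g₁ g₂ : Fin n → ℕ) :
    spechtSubmodule n l ⊗[ℂ] spechtSubmodule n μ →ₗ[ℂ] ℂ :=
  TensorProduct.lift
    (LinearMap.mk₂ ℂ (fun v w => (v : (Fin n → ℕ) → ℂ) g₁ * (w : (Fin n → ℕ) → ℂ) g₂)
      (fun _ _ _ => by simp [add_mul]) (fun _ _ _ => by simp [mul_assoc])
      (fun _ _ _ => by simp [mul_add]) (fun _ _ _ => by simp [mul_left_comm]))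

omit a b c in
lemma finrank_intertwining_pos {G V W : Type} [Group G] [AddCommGroup V] [AddCommGroup W]
    [Module ℂ V] [Module ℂ W] [Module.Finite ℂ V] [Module.Finite ℂ W]
    (ρ : Representation ℂ G V) (σ : Representation ℂ G W) (f : ρ.IntertwiningMap σ)
    (hf : f.toLinearMap ≠ 0) : 0 < Module.finrank ℂ (ρ.IntertwiningMap σ) :=
  Module.finrank_pos_iff_exists_ne_zero.mpr ⟨f, fun h => hf (by rw [h]; rfl)⟩

theorem kronecker_pos
    (h : ∃ g₁ g₂ g₃, tsum (tabOf l a) (tabOf μ b) (tabOf ν c) g₁ g₂ g₃ ≠ 0) :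
    0 < kronecker n l μ ν := by
  obtain ⟨g₁, g₂, g₃, ht⟩ := h
  obtain ⟨s₀, -, hs₀⟩ := Finset.exists_ne_zero_of_sum_ne_zero ht
  have m₃ := mem_rowSupp_of_e_ne_zero c s₀ g₃ (right_ne_zero_of_mul hs₀)
  set T : (Fin n → ℕ) → ℚ := fun f => tsum (tabOf l a) (tabOf μ b) (tabOf ν c) g₁ g₂ f
  have hpos : 0 < ∑ f ∈ rowSupp ν c, T f * T f :=
    Finset.sum_pos' (fun f _ => mul_self_nonneg _) ⟨g₃, m₃, mul_self_pos.mpr ht⟩
  set w : spechtSubmodule n ν := ∑ σ : Equiv.Perm (Fin n),
    (((tabOf l a).e (g₁ ∘ σ) * (tabOf μ b).e (g₂ ∘ σ) : ℚ) : ℂ) • polyVec ν c σ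
  have hw : ∀ f, (w : (Fin n → ℕ) → ℂ) f = (T f : ℂ) := by
    intro f
    simp [w, T, tsum, polyVec_apply, Finset.sum_apply]
  have hne : (kronMap a b c).toLinearMap ≠ 0 := by
    intro h0
    have e : evalPair g₁ g₂ ((kronMap a b c).toLinearMap w) = 0 := by
      rw [h0]
      simp
    have e' : evalPair g₁ g₂ ((kronMap a b c).toLinearMap w) =
        ((∑ f ∈ rowSupp ν c, T f * T f : ℚ) : ℂ) := by
      simp only [kronMap, LinearMap.intertwiningMap_of_isIntertwiningMap, LinearMap.sum_apply,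
        LinearMap.smulRight_apply, map_sum, map_smul, evalPair, TensorProduct.lift.tmul,
        LinearMap.mk₂_apply, polyVec_apply, smul_eq_mul, pairing, LinearMap.coe_mk, AddHom.coe_mk,
        hw, Finset.sum_mul]
      rw [Finset.sum_comm, Rat.cast_sum]
      refine Finset.sum_congr rfl fun f _ => ?_
      simp only [T, tsum, Rat.cast_mul, Rat.cast_sum, Finset.mul_sum]
      exact Finset.sum_congr rfl fun σ _ => by ring
    rw [e] at e'
    exact hpos.ne' (by exact_mod_cast e'.symm)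
  have := specht_finite n l
  have := specht_finite n μ
  have := specht_finite n ν
  exact finrank_intertwining_pos (V := spechtSubmodule n ν)
    (W := spechtSubmodule n l ⊗[ℂ] spechtSubmodule n μ) (spechtRep n ν)
    ((spechtRep n l).tprod (spechtRep n μ)) (kronMap a b c) hne

end Vale.Agent.P197
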