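import Vale.Agent.P197.Staircase
import Vale.Agent.P197.Kronecker

/-!
The tensor square of the staircase contains every constituent with at most `m` rows or at most
`m` columns.
-/

namespace Vale.Agent.P197

open Finset

lemma mem_staircase (m : ℕ) (c : ℕ × ℕ) : c ∈ (staircase m).cells ↔ c.1 + c.2 < m := by
  simp only [staircase, mem_filter, mem_product, mem_range]
  omega

lemma card_cell : ∀ m, Fintype.card (Cell m) = tri m
  | 0 => Fintype.card_eq_zero_iff.mpr ⟨fun x => x.1.1.elim0⟩
  | r + 1 => by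
    rw [Fintype.card_congr (bandEquiv r), Fintype.card_sum, Fintype.card_fin, card_cell (r - 1),
      tri_step]
    omega

lemma card_staircase (m : ℕ) : (staircase m).cells.card = tri m := by
  rw [← card_cell m, ← Fintype.card_coe]
  exact Fintype.card_congr
    { toFun := fun c => ⟨(⟨c.1.1, by have := (mem_staircase m _).mp c.2; omega⟩,
        ⟨c.1.2, by have := (mem_staircase m _).mp c.2; omega⟩), (mem_staircase m _).mp c.2⟩
      invFun := fun x => ⟨(x.1.1, x.1.2), (mem_staircase m _).mpr x.2⟩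
      left_inv := fun _ => rfl
      right_inv := fun _ => rfl }

lemma exists_filling {X κ : Type} [Fintype X] [DecidableEq X] [DecidableEq κ] (T : Tab X κ)
    (v : κ → ℕ) (hv : Function.Injective v) (μ : YoungDiagram)
    (hmem : ∀ x, (T.row x, v (T.col x)) ∈ μ.cells) (hcard : Fintype.card X = μ.cells.card) :
    ∃ t : X ≃ μ.cells, ∀ x, (t x : ℕ × ℕ).2 = v (T.col x) := by
  have hinj : Function.Injective fun x => (⟨(T.row x, v (T.col x)), hmem x⟩ : μ.cells) := by
    intro x y e
    simp only [Subtype.mk.injEq, Prod.mk.injEq] at e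
    exact T.inj x y (hv e.2) e.1
  exact ⟨Equiv.ofBijective _ ((Fintype.bijective_iff_injective_and_card _).mpr
    ⟨hinj, by rw [hcard, Fintype.card_coe]⟩), fun _ => rfl⟩

lemma card_eq_sum_colLen (ν : YoungDiagram) :
    ν.cells.card = ∑ q : Fin (ν.rowLen 0), ν.colLen q := by
  have h : ∀ c ∈ ν.cells, c.2 ∈ range (ν.rowLen 0) := by
    intro c hc
    exact mem_range.mpr (YoungDiagram.mem_iff_lt_rowLen.mp
      (ν.isLowerSet (show ((0, c.2) : ℕ × ℕ) ≤ c from ⟨Nat.zero_le _, le_rfl⟩) hc))
  rw [Finset.card_eq_sum_card_fiberwise h, Fin.sum_univ_eq_sum_range fun q => ν.colLen q]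
  exact Finset.sum_congr rfl fun q _ => (YoungDiagram.colLen_eq_card ν).symm

/-- The symmetrised value is nonzero for diagrams with at most `m` rows. -/
theorem exists_fillings (m : ℕ) (ν : YoungDiagram) (hcard : ν.cells.card = tri m)
    (hlen : ν.colLen 0 ≤ m) :
    ∃ (a b : Cell m ≃ (staircase m).cells) (c : Cell m ≃ ν.cells) (g₁ g₂ g₃ : Cell m → ℕ),
      tsum (tabOf _ a) (tabOf _ b) (tabOf _ c) g₁ g₂ g₃ ≠ 0 := by
  obtain ⟨W, hW, hP⟩ := pos_staircase m (ν.rowLen 0) (fun q => ν.colLen q)
    (by rw [← card_eq_sum_colLen, hcard])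
    (fun q => le_trans (ν.colLen_anti 0 q (Nat.zero_le _)) hlen)
  have hX := card_cell m
  obtain ⟨a, ha⟩ := exists_filling (rowT m) id Function.injective_id (staircase m)
    (fun x => (mem_staircase m _).mpr (by
      have := x.2
      show m - 1 - ((x.1.1 : ℕ) + x.1.2) + (x.1.1 : ℕ) < m
      omega)) (by rw [hX, card_staircase])
  obtain ⟨b, hb⟩ := exists_filling (colT m) id Function.injective_id (staircase m)
    (fun x => (mem_staircase m _).mpr (by
      have := x.2
      show m - 1 - ((x.1.1 : ℕ) + x.1.2) + (x.1.2 : ℕ) < m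
      omega)) (by rw [hX, card_staircase])
  obtain ⟨c, hc⟩ := exists_filling W (fun q => (q : ℕ)) Fin.val_injective ν
    (fun x => (YoungDiagram.mem_iff_lt_colLen.mpr (by
      have := W.row_lt_len x
      rw [hW] at this
      exact this))) (by rw [hX, hcard])
  have hP' : Pos (tabOf _ a) (tabOf _ b) (tabOf _ c) := by
    refine hP.congr (fun x y => ?_) (fun x y => ?_) (fun x y => ?_)
    · simp only [tabOf, ha, id]
    · simp only [tabOf, hb, id]
    · simp only [tabOf, hc, Fin.val_inj]
  exact ⟨a, b, c, (pos_iff _ _ _).mp hP'⟩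

lemma kronecker_pos_of_cell {n m : ℕ} {l μ ν : YoungDiagram} (hn : Fintype.card (Cell m) = n)
    (a : Cell m ≃ l.cells) (b : Cell m ≃ μ.cells) (c : Cell m ≃ ν.cells)
    (h : ∃ g₁ g₂ g₃, tsum (tabOf _ a) (tabOf _ b) (tabOf _ c) g₁ g₂ g₃ ≠ 0) :
    0 < kronecker n l μ ν := by
  obtain φ : Fin n ≃ Cell m := (Fintype.equivFinOfCardEq hn).symm
  refine kronecker_pos (φ.trans a) (φ.trans b) (φ.trans c) ?_
  exact (pos_iff _ _ _).mp (((pos_iff _ _ _).mpr h).map φ)

theorem kronecker_staircase_pos (m : ℕ) (ν : YoungDiagram)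
    (hcard : ν.cells.card = m * (m + 1) / 2) (h : ν.colLen 0 ≤ m ∨ ν.rowLen 0 ≤ m) :
    0 < kronecker (m * (m + 1) / 2) (staircase m) (staircase m) ν := by
  have htri : tri m = m * (m + 1) / 2 := by rw [← two_tri m]; omega
  have hn : Fintype.card (Cell m) = m * (m + 1) / 2 := by rw [card_cell, htri]
  rcases h with h | h
  · obtain ⟨a, b, c, hg⟩ := exists_fillings m ν (by rw [hcard, htri]) h
    exact kronecker_pos_of_cell hn a b c hg
  · have hc : ν.transpose.cells.card = tri m := by
      rw [htri, ← hcard]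
      simp [YoungDiagram.transpose]
    obtain ⟨a, b, c, hg⟩ := exists_fillings m ν.transpose hc
      (by rw [YoungDiagram.colLen_transpose]; exact h)
    obtain ⟨a', c', hg'⟩ := twist (l' := staircase m) (ν' := ν) a b c
      (fun p => by simp only [mem_staircase, Prod.fst_swap, Prod.snd_swap, Nat.add_comm])
      (fun p => by simp [YoungDiagram.mem_transpose, YoungDiagram.mem_cells]) hg
    exact kronecker_pos_of_cell hn a' b c' hg'

end Vale.Agent.P197
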