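import Vale.Agent.P197.Kostka
import Vale.Agent.P197.Main

/-!
Positivity of the two staircases against shapes dominated by the staircase.
-/

namespace Vale.Agent.P197

open Finset

section General

variable {X ι : Type} [Fintype X] [DecidableEq X] [DecidableEq ι]

lemma e_row_self (T : Tab X ι) : T.e T.row = 1 := by
  rw [Tab.e, Finset.sum_eq_single (1 : Equiv.Perm X)]
  · simp
  · intro c hc hne
    refine if_neg fun h => hne (Equiv.ext fun x => ?_)
    exact T.inj _ _ (Tab.mem_cperm.mp hc x) (congrFun h x).symm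
  · intro h; exact absurd T.one_mem_cperm h

lemma e_comp_cperm (T : Tab X ι) {c₀ : Equiv.Perm X} (h₀ : c₀ ∈ T.cperm) (f : X → ℕ) :
    T.e (f ∘ c₀) = sg c₀ * T.e f := by
  rw [Tab.e, Tab.e, Finset.mul_sum]
  symm
  refine Finset.sum_equiv (Equiv.mulRight c₀) ?_ ?_
  · intro c
    constructor
    · intro h; exact Tab.mul_mem_cperm h h₀
    · intro h
      have := Tab.mul_mem_cperm h (Tab.inv_mem_cperm h₀)
      simpa using this
  · intro c _
    rw [Equiv.coe_mulRight, mul_ite, mul_zero, sg_mul, mul_comm (sg c₀)]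
    refine if_congr ?_ rfl rfl
    simp only [funext_iff, Function.comp_apply, Equiv.Perm.coe_mul]
    exact ⟨fun h x => h (c₀ x), fun h x => by simpa using h (c₀.symm x)⟩

lemma exists_of_e_ne_zero (T : Tab X ι) {f : X → ℕ} (h : T.e f ≠ 0) :
    ∃ c ∈ T.cperm, f = T.row ∘ c := by
  obtain ⟨c, hc, hne⟩ := Finset.exists_ne_zero_of_sum_ne_zero h
  exact ⟨c, hc, by by_contra h'; exact hne (if_neg h')⟩

/-- If a triple symmetrised over relabellings of the third tableau vanishes identically, so does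
the triple with the first diagram doubled and a sign. -/
lemma exists_pos_of_double {μ μ' : YoungDiagram} (t : X ≃ μ.cells)
    (hflip : ∀ c : ℕ × ℕ, c ∈ μ'.cells ↔ c.swap ∈ μ.cells) (W : Tab X ι) (a f d : X → ℕ)
    (hf : f ∈ rowSupp μ t)
    (h : ∑ τ : Equiv.Perm X,
      sg τ * (tabOf μ t).e (a ∘ τ) * (tabOf μ t).e (f ∘ τ) * W.e (d ∘ τ) ≠ 0) :
    ∃ π : Equiv.Perm X, Pos (tabOf μ t) (tabOf μ' (flipFilling t hflip)) (W.map π) := by
  by_contra hno
  push Not at hno
  set U := tabOf μ t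
  set U' := tabOf μ' (flipFilling t hflip)
  have hz : ∀ (π : Equiv.Perm X) (b : X → ℕ), tsum U U' (W.map π) a b d = 0 := by
    intro π b
    by_contra h'
    exact hno π ((pos_iff _ _ _).mpr ⟨a, b, d, h'⟩)
  set T : (X → ℕ) → ℚ := fun g =>
    ∑ τ : Equiv.Perm X, sg τ * U.e (a ∘ τ) * U.e (g ∘ τ) * W.e (d ∘ τ) with hTdef
  have hb : ∀ b, ∑ g ∈ rowSupp μ t, T g * twistKer μ t g b = 0 := by
    intro b
    have h₁ : ∑ g ∈ rowSupp μ t, T g * twistKer μ t g b =
        ∑ q ∈ U.cperm, sg q * tsum U U' (W.map (q⁻¹ : Equiv.Perm X)) a b d := by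
      calc ∑ g ∈ rowSupp μ t, T g * twistKer μ t g b
          = ∑ τ : Equiv.Perm X, (sg τ * U.e (a ∘ τ) * W.e (d ∘ τ)) *
              ∑ g ∈ rowSupp μ t, U.e (g ∘ τ) * twistKer μ t g b := by
            simp only [hTdef, Finset.sum_mul, Finset.mul_sum]
            rw [Finset.sum_comm]
            exact Finset.sum_congr rfl fun τ _ => Finset.sum_congr rfl fun g _ => by ring
        _ = ∑ τ : Equiv.Perm X, ∑ q ∈ U.cperm, U.e (a ∘ τ) * W.e (d ∘ τ) *
              U'.e (b ∘ τ ∘ (q⁻¹ : Equiv.Perm X)) := by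
            refine Finset.sum_congr rfl fun τ _ => ?_
            rw [twist_e t hflip τ b, Finset.mul_sum, Finset.mul_sum]
            exact Finset.sum_congr rfl fun q _ => by
              linear_combination (U.e (a ∘ τ) * W.e (d ∘ τ) *
                U'.e (b ∘ τ ∘ (q⁻¹ : Equiv.Perm X))) * sg_mul_self τ
        _ = ∑ q ∈ U.cperm, sg q * tsum U U' (W.map (q⁻¹ : Equiv.Perm X)) a b d := by
            rw [Finset.sum_comm]
            refine Finset.sum_congr rfl fun q hq => ?_
            rw [tsum, Finset.mul_sum]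
            conv_rhs => rw [← Equiv.sum_comp (Equiv.mulRight q⁻¹)]
            refine Finset.sum_congr rfl fun τ _ => ?_
            have hq' := Tab.inv_mem_cperm hq
            have e₁ : a ∘ ⇑(τ * q⁻¹) = (a ∘ τ) ∘ ⇑(q⁻¹ : Equiv.Perm X) := rfl
            have e₂ : b ∘ ⇑(τ * q⁻¹) = b ∘ τ ∘ ⇑(q⁻¹ : Equiv.Perm X) := rfl
            have e₃ : (d ∘ ⇑(τ * q⁻¹)) ∘ ⇑(Equiv.symm (q⁻¹ : Equiv.Perm X)) = d ∘ τ := by
              funext x; simp [Equiv.Perm.inv_def]
            simp only [Equiv.coe_mulRight, e_map, e₃, e₁, e_comp_cperm U hq', sg_inv, e₂]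
            linear_combination (-(U.e (a ∘ τ) * W.e (d ∘ τ) *
              U'.e (b ∘ τ ∘ (q⁻¹ : Equiv.Perm X)))) * sg_mul_self q
    rw [h₁]
    exact Finset.sum_eq_zero fun q _ => by rw [hz, mul_zero]
  have hT : ∀ g, T g = ∑ τ : Equiv.Perm X, U.e (a ∘ τ) * W.e (d ∘ τ) *
      twistKer μ t g (U.col ∘ τ.symm) := by
    intro g
    refine Finset.sum_congr rfl fun τ _ => ?_
    rw [e_comp_eq_twistKer t τ g]
    linear_combination (U.e (a ∘ τ) * W.e (d ∘ τ) *
      twistKer μ t g (U.col ∘ τ.symm)) * sg_mul_self τ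
  have hsq : ∑ g ∈ rowSupp μ t, T g * T g = 0 := by
    calc ∑ g ∈ rowSupp μ t, T g * T g
        = ∑ g ∈ rowSupp μ t, ∑ τ : Equiv.Perm X, U.e (a ∘ τ) * W.e (d ∘ τ) *
            (T g * twistKer μ t g (U.col ∘ τ.symm)) := by
          refine Finset.sum_congr rfl fun g _ => ?_
          conv_lhs => arg 2; rw [hT]
          rw [Finset.mul_sum]
          exact Finset.sum_congr rfl fun τ _ => by ring
      _ = ∑ τ : Equiv.Perm X, U.e (a ∘ τ) * W.e (d ∘ τ) *
            ∑ g ∈ rowSupp μ t, T g * twistKer μ t g (U.col ∘ τ.symm) := by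
          rw [Finset.sum_comm]
          simp only [Finset.mul_sum]
      _ = 0 := Finset.sum_eq_zero fun τ _ => by rw [hb, mul_zero]
  exact h (mul_self_eq_zero.mp
    ((Finset.sum_eq_zero_iff_of_nonneg fun g _ => mul_self_nonneg _).mp hsq f hf))

end General

/-- The filling of the staircase whose columns are indexed by the first coordinate. -/
def rowFilling (m : ℕ) : Cell m ≃ (staircase m).cells where
  toFun x := ⟨(m - 1 - ((x.1.1 : ℕ) + x.1.2), (x.1.1 : ℕ)), (mem_staircase m _).mpr (by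
    have := x.2; simp only; omega)⟩
  invFun c := ⟨(⟨c.1.2, by have := (mem_staircase m _).mp c.2; omega⟩,
      ⟨m - 1 - (c.1.1 + c.1.2), by have := (mem_staircase m _).mp c.2; omega⟩), by
    have := (mem_staircase m _).mp c.2; simp only; omega⟩
  left_inv x := by
    have := x.2
    exact Subtype.ext (Prod.ext (Fin.ext rfl) (Fin.ext (by simp only; omega)))
  right_inv c := by
    have := (mem_staircase m _).mp c.2
    exact Subtype.ext (Prod.ext (by simp only; omega) rfl)

lemma staircase_swap (m : ℕ) (c : ℕ × ℕ) :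
    c ∈ (staircase m).cells ↔ c.swap ∈ (staircase m).cells := by
  simp only [mem_staircase, Prod.fst_swap, Prod.snd_swap, Nat.add_comm]

/-- Reversal of every row of the staircase. -/
def revRows (m : ℕ) : Equiv.Perm (Cell m) :=
  Function.Involutive.toPerm (fun x => ⟨(x.1.1, ⟨m - 1 - ((x.1.1 : ℕ) + x.1.2), by omega⟩), by
      have := x.2; simp only; omega⟩) (by
    intro x
    have := x.2
    exact Subtype.ext (Prod.ext rfl (Fin.ext (by simp only; omega))))

lemma revRows_fst (m : ℕ) (x : Cell m) : ((revRows m x).1.1 : ℕ) = x.1.1 := rfl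

lemma revRows_snd (m : ℕ) (x : Cell m) :
    ((revRows m x).1.2 : ℕ) = m - 1 - ((x.1.1 : ℕ) + x.1.2) := rfl

lemma revRows_mem (m : ℕ) : revRows m ∈ (tabOf _ (rowFilling m)).cperm := by
  rw [Tab.mem_cperm]
  intro x
  rfl

lemma mem_cperm_rowFilling (m : ℕ) (c : Equiv.Perm (Cell m)) :
    c ∈ (tabOf _ (rowFilling m)).cperm ↔ ∀ x, ((c x).1.1 : ℕ) = x.1.1 := by
  rw [Tab.mem_cperm]
  rfl

/-- Two transversal labellings force a permutation to preserve the rows of the staircase. -/
lemma rows_preserved (m : ℕ) (τ : Equiv.Perm (Cell m)) {c₁ c₂ : Equiv.Perm (Cell m)}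
    (h₁ : c₁ ∈ (tabOf _ (rowFilling m)).cperm) (h₂ : c₂ ∈ (tabOf _ (rowFilling m)).cperm)
    (e₁ : (tabOf _ (rowFilling m)).row ∘ τ = (tabOf _ (rowFilling m)).row ∘ c₁)
    (e₂ : ((tabOf _ (rowFilling m)).row ∘ revRows m) ∘ τ =
      (tabOf _ (rowFilling m)).row ∘ c₂) :
    ∀ x, ((τ x).1.1 : ℕ) = x.1.1 := by
  intro x
  induction hn : (x.1.1 : ℕ) using Nat.strong_induction_on generalizing x with
  | _ n ih =>
    subst hn
    set Y := univ.filter fun y : Cell m => (y.1.1 : ℕ) = x.1.1 with hY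
    have hge : ∀ y ∈ Y, (x.1.1 : ℕ) ≤ (τ y).1.1 := by
      intro y hy
      rw [hY, mem_filter] at hy
      by_contra hlt
      push Not at hlt
      set Z := univ.filter fun z : Cell m => (z.1.1 : ℕ) = (τ y).1.1 with hZ
      have hsub : Z.image τ ⊆ Z := by
        intro z hz
        obtain ⟨w, hw, rfl⟩ := mem_image.mp hz
        rw [hZ, mem_filter] at hw ⊢
        exact ⟨mem_univ _, (ih _ (hw.2 ▸ hlt) w rfl).trans hw.2⟩
      have hZe : Z.image τ = Z := Finset.eq_of_subset_of_card_le hsub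
        (by rw [Finset.card_image_of_injective _ τ.injective])
      have : τ y ∈ Z.image τ := by rw [hZe, hZ, mem_filter]; exact ⟨mem_univ _, rfl⟩
      obtain ⟨w, hw, hwe⟩ := mem_image.mp this
      rw [τ.injective hwe, hZ, mem_filter] at hw
      have := hw.2
      omega
    have hsum : ∑ y ∈ Y, ((m - 1) - ((τ y).1.1 : ℕ)) = ∑ y ∈ Y, ((m - 1) - (x.1.1 : ℕ)) := by
      set r := (tabOf _ (rowFilling m)).row with hr
      have hfix : ∀ c : Equiv.Perm (Cell m), (∀ y, ((c y).1.1 : ℕ) = y.1.1) →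
          ∀ g : Cell m → ℕ, ∑ y ∈ Y, g (c y) = ∑ y ∈ Y, g y := by
        intro c hc g
        refine Finset.sum_equiv c ?_ (fun _ _ => rfl)
        intro y
        rw [hY, mem_filter, mem_filter, hc]
        simp
      have hrr : ∀ y : Cell m, r y + r (revRows m y) = m - 1 - (y.1.1 : ℕ) := by
        intro y
        have := y.2
        show m - 1 - ((y.1.1 : ℕ) + y.1.2) +
          (m - 1 - (((revRows m y).1.1 : ℕ) + (revRows m y).1.2)) = _
        rw [revRows_fst, revRows_snd]
        omega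
      calc ∑ y ∈ Y, ((m - 1) - ((τ y).1.1 : ℕ))
          = ∑ y ∈ Y, (r (c₁ y) + r (c₂ y)) := by
            refine Finset.sum_congr rfl fun y _ => ?_
            rw [← hrr (τ y)]
            congr 1
            · exact congrFun e₁ y
            · exact congrFun e₂ y
        _ = ∑ y ∈ Y, (r y + r (revRows m y)) := by
            rw [Finset.sum_add_distrib, Finset.sum_add_distrib,
              hfix c₁ ((mem_cperm_rowFilling m c₁).mp h₁) r,
              hfix c₂ ((mem_cperm_rowFilling m c₂).mp h₂) r,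
              hfix (revRows m) (revRows_fst m) r]
        _ = _ := by
            refine Finset.sum_congr rfl fun y hy => ?_
            rw [hY, mem_filter] at hy
            rw [hrr, hy.2]
    have hle : ∀ y ∈ Y, (m - 1) - ((τ y).1.1 : ℕ) ≤ (m - 1) - (x.1.1 : ℕ) := fun y hy => by
      have := hge y hy
      omega
    have hx : x ∈ Y := by rw [hY, mem_filter]; exact ⟨mem_univ _, rfl⟩
    have h := (Finset.sum_eq_sum_iff_of_le hle).mp hsum x hx
    have := hge x hx
    have := (τ x).2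
    omega

/-- Shapes dominated by the staircase. -/
theorem pos_dominated (m : ℕ) (W : Tab (Cell m) ℕ)
    (hW : ∀ π γ : Equiv.Perm (Cell m), (∀ x, ((π x).1.1 : ℕ) = x.1.1) → γ ∈ W.cperm →
      W.row ∘ π = W.row ∘ γ → π = γ) :
    ∃ φ : Equiv.Perm (Cell m), Pos (rowT m) (colT m) (W.map φ) := by
  set U := tabOf _ (rowFilling m) with hU
  set f := U.row ∘ revRows m
  have hne : ∑ τ : Equiv.Perm (Cell m),
      sg τ * U.e (U.row ∘ τ) * U.e (f ∘ τ) * W.e (W.row ∘ τ) ≠ 0 := by
    rw [← Finset.sum_subset (Finset.subset_univ U.cperm)]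
    · have hterm : ∀ τ ∈ U.cperm,
          sg τ * U.e (U.row ∘ τ) * U.e (f ∘ τ) * W.e (W.row ∘ τ) =
            sg (revRows m) * (if τ ∈ W.cperm then 1 else 0) := by
        intro τ hτ
        have hW' : W.e (W.row ∘ τ) = if τ ∈ W.cperm then sg τ else 0 := by
          rw [Tab.e, ← Finset.sum_ite_eq W.cperm τ sg]
          refine Finset.sum_congr rfl fun γ hγ => if_congr ⟨fun h => ?_, fun h => ?_⟩ rfl rfl
          · exact hW τ γ ((mem_cperm_rowFilling m τ).mp hτ) hγ h
          · rw [h]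
        have e₁ : f ∘ ⇑τ = U.row ∘ ⇑(revRows m * τ) := rfl
        rw [e_comp_cperm U hτ, e₁, e_comp_cperm U (Tab.mul_mem_cperm (revRows_mem m) hτ),
          e_row_self, hW', sg_mul]
        split_ifs
        · linear_combination (sg (revRows m) * (sg τ * sg τ + 1)) * sg_mul_self τ
        · simp
      rw [Finset.sum_congr rfl hterm, ← Finset.mul_sum, Finset.sum_boole]
      refine mul_ne_zero (sg_ne_zero _) ?_
      exact_mod_cast (Finset.card_pos.mpr
        ⟨1, Finset.mem_filter.mpr ⟨U.one_mem_cperm, W.one_mem_cperm⟩⟩).ne'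
    · intro τ _ hτ
      by_contra hne
      obtain ⟨c₁, h₁, e₁⟩ := exists_of_e_ne_zero U
        (right_ne_zero_of_mul (left_ne_zero_of_mul (left_ne_zero_of_mul hne)))
      obtain ⟨c₂, h₂, e₂⟩ := exists_of_e_ne_zero U
        (right_ne_zero_of_mul (left_ne_zero_of_mul hne))
      exact hτ ((mem_cperm_rowFilling m τ).mpr (rows_preserved m τ h₁ h₂ e₁ e₂))
  obtain ⟨π, hπ⟩ := exists_pos_of_double (rowFilling m) (staircase_swap m) W U.row f W.row
    (mem_image.mpr ⟨revRows m, mem_univ _, rfl⟩) hne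
  refine ⟨(revRows m).trans π, (hπ.map (revRows m)).congr (fun x y => ?_) (fun x y => ?_)
    (fun x y => Iff.rfl)⟩
  · rfl
  · show (x.1.2 : ℕ) = y.1.2 ↔
      m - 1 - (((revRows m x).1.1 : ℕ) + (revRows m x).1.2) =
        m - 1 - (((revRows m y).1.1 : ℕ) + (revRows m y).1.2)
    rw [revRows_fst, revRows_fst, revRows_snd, revRows_snd]
    have := x.2; have := y.2
    omega

end Vale.Agent.P197
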