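import Vale.Agent.P197.Basic
import Vale.Agent.P197.Defs

/-!
Fillings of diagrams as column structures, transposition of two of the three diagrams, and the
passage from a nonzero symmetrised value to a positive Kronecker coefficient.
-/

namespace Vale.Agent.P197

open Finset

variable {X : Type} [Fintype X] [DecidableEq X]

/-- The column structure of a filling. -/
def tabOf (μ : YoungDiagram) (t : X ≃ μ.cells) : Tab X ℕ where
  col x := (t x).1.2
  row x := (t x).1.1
  inj x y h₁ h₂ := t.injective (Subtype.ext (Prod.ext h₂ h₁))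
  lt x := by
    refine lt_of_lt_of_le (Nat.lt_succ_self _)
      (le_trans (le_of_eq (Finset.card_range _).symm)
      (Finset.card_le_card_of_injOn (fun r => if h : r ≤ (t x).1.1 then
        t.symm ⟨(r, (t x).1.2), μ.isLowerSet (show (r, (t x).1.2) ≤ (t x).1 from ⟨h, le_rfl⟩)
          (t x).2⟩ else x) ?_ ?_))
    · intro r hr
      simp only [coe_range, Set.mem_Iio] at hr
      rw [Finset.mem_coe, mem_filter]
      refine ⟨mem_univ _, ?_⟩
      dsimp only
      rw [dif_pos (Nat.lt_succ_iff.mp hr), Equiv.apply_symm_apply]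
    · intro r hr r' hr' e
      simp only [coe_range, Set.mem_Iio] at hr hr'
      dsimp only at e
      rw [dif_pos (Nat.lt_succ_iff.mp hr), dif_pos (Nat.lt_succ_iff.mp hr'),
        t.symm.injective.eq_iff, Subtype.mk.injEq, Prod.mk.injEq] at e
      exact e.1

section Transpose

variable {ι : Type} [DecidableEq ι]

/-- The kernel carrying polytabloids of a filling to those of the transposed filling. -/
def twistKer (μ : YoungDiagram) (t : X ≃ μ.cells) (f g : X → ℕ) : ℚ :=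
  ∑ s : Equiv.Perm X, if f = (tabOf μ t).row ∘ s ∧ g = (tabOf μ t).col ∘ s then sg s else 0

variable {μ μ' : YoungDiagram} (t : X ≃ μ.cells)

/-- The transposed filling. -/
def flipFilling (h : ∀ c : ℕ × ℕ, c ∈ μ'.cells ↔ c.swap ∈ μ.cells) : X ≃ μ'.cells where
  toFun x := ⟨(t x).1.swap, (h _).mpr (by rw [Prod.swap_swap]; exact (t x).2)⟩
  invFun c := t.symm ⟨c.1.swap, (h _).mp c.2⟩
  left_inv x := by simp
  right_inv c := by ext1; simp

lemma e_comp_eq_twistKer (s : Equiv.Perm X) (f : X → ℕ) :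
    (tabOf μ t).e (f ∘ s) = sg s * twistKer μ t f ((tabOf μ t).col ∘ s.symm) := by
  rw [Tab.e, twistKer, Finset.mul_sum]
  conv_rhs => rw [← Equiv.sum_comp (Equiv.mulRight s⁻¹)]
  rw [← Finset.sum_subset (Finset.subset_univ (tabOf μ t).cperm)]
  · refine Finset.sum_congr rfl fun c hc => ?_
    have hcol : (tabOf μ t).col ∘ s.symm = (tabOf μ t).col ∘ ⇑(c * s⁻¹) := by
      funext x
      exact (Tab.mem_cperm.mp hc _).symm
    have hsg : sg s * sg (c * s⁻¹) = sg c := by
      rw [sg_mul, sg_inv, show sg s * (sg c * sg s) = sg c * (sg s * sg s) from by ring,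
        sg_mul_self, mul_one]
    have hrow : f = (tabOf μ t).row ∘ ⇑(c * s⁻¹) ↔ f ∘ ⇑s = (tabOf μ t).row ∘ ⇑c := by
      simp only [funext_iff, Function.comp_apply, Equiv.Perm.coe_mul]
      exact ⟨fun h x => by simpa using h (s x), fun h x => by simpa using h (s⁻¹ x)⟩
    simp only [Equiv.coe_mulRight, mul_ite, mul_zero, hsg, ← hcol, and_true, hrow]
  · intro p _ hp
    rw [if_neg, mul_zero]
    rintro ⟨-, hcol⟩
    refine hp (Tab.mem_cperm.mpr fun x => ?_)
    have := congrFun hcol (s x)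
    simpa using this.symm

/-- All row assignments occurring in the polytabloids of a shape. -/
def rowSupp (μ : YoungDiagram) (t : X ≃ μ.cells) : Finset (X → ℕ) :=
  univ.image fun s : Equiv.Perm X => (tabOf μ t).row ∘ s

lemma mem_rowSupp_of_e_ne_zero (s : Equiv.Perm X) (f : X → ℕ)
    (h : (tabOf μ t).e (f ∘ s) ≠ 0) : f ∈ rowSupp μ t := by
  obtain ⟨c, -, hc⟩ := Finset.exists_ne_zero_of_sum_ne_zero h
  have hf : f ∘ s = (tabOf μ t).row ∘ c := by
    by_contra h'
    exact hc (if_neg h')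
  refine mem_image.mpr ⟨c * s⁻¹, mem_univ _, ?_⟩
  funext x
  have := congrFun hf (s⁻¹ x)
  simp only [Function.comp_apply] at this
  simpa using this.symm

lemma twist_e (h : ∀ c : ℕ × ℕ, c ∈ μ'.cells ↔ c.swap ∈ μ.cells) (s : Equiv.Perm X)
    (g : X → ℕ) :
    ∑ f ∈ rowSupp μ t, (tabOf μ t).e (f ∘ s) * twistKer μ t f g =
      sg s * ∑ q ∈ (tabOf μ t).cperm,
        (tabOf μ' (flipFilling t h)).e (g ∘ s ∘ (q⁻¹ : Equiv.Perm X)) := by
  have h₁ : ∑ f ∈ rowSupp μ t, (tabOf μ t).e (f ∘ s) * twistKer μ t f g =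
      ∑ p : Equiv.Perm X, if g = (tabOf μ t).col ∘ p
        then sg p * (tabOf μ t).e ((tabOf μ t).row ∘ p ∘ s) else 0 := by
    simp only [twistKer, Finset.mul_sum, mul_ite, mul_zero]
    rw [Finset.sum_comm]
    refine Finset.sum_congr rfl fun p _ => ?_
    rw [Finset.sum_eq_single ((tabOf μ t).row ∘ p)]
    · simp only [true_and]
      split_ifs <;> simp [mul_comm, Function.comp_assoc]
    · intro f _ hf
      exact if_neg fun e => hf e.1
    · intro hn
      exact absurd (mem_image_of_mem _ (mem_univ p)) hn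
  rw [h₁, Finset.mul_sum]
  have h₂ : ∀ p : Equiv.Perm X, (if g = (tabOf μ t).col ∘ p
      then sg p * (tabOf μ t).e ((tabOf μ t).row ∘ p ∘ s) else 0) =
      ∑ q ∈ (tabOf μ t).cperm, if g = (tabOf μ t).col ∘ p ∧
        (tabOf μ t).row ∘ p ∘ s = (tabOf μ t).row ∘ q then sg p * sg q else 0 := by
    intro p
    by_cases hg : g = (tabOf μ t).col ∘ p <;> simp [hg, Tab.e, Finset.mul_sum]
  simp only [h₂]
  rw [Finset.sum_comm]
  refine Finset.sum_congr rfl fun q hq => ?_
  rw [← Equiv.sum_comp (Equiv.mulRight (q * s⁻¹)), Tab.e, Finset.mul_sum,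
    ← Finset.sum_subset (Finset.subset_univ (tabOf μ' (flipFilling t h)).cperm)]
  · refine Finset.sum_congr rfl fun p hp => ?_
    have hrow : (tabOf μ t).row ∘ ⇑(p * (q * s⁻¹)) ∘ ⇑s = (tabOf μ t).row ∘ ⇑q := by
      funext x
      simpa [tabOf, flipFilling] using Tab.mem_cperm.mp hp (q x)
    have hs : sg (p * (q * s⁻¹)) * sg q = sg s * sg p := by
      simp only [sg_mul, sg_inv]
      linear_combination (sg p * sg s) * sg_mul_self q
    have hg : g = (tabOf μ t).col ∘ ⇑(p * (q * s⁻¹)) ↔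
        g ∘ ⇑s ∘ ⇑(q⁻¹ : Equiv.Perm X) = (tabOf μ t).col ∘ ⇑p := by
      simp only [funext_iff, Function.comp_apply, Equiv.Perm.coe_mul]
      exact ⟨fun e x => by simpa using e (s (q⁻¹ x)), fun e x => by simpa using e (q (s⁻¹ x))⟩
    simp only [Equiv.coe_mulRight, hrow, and_true, hs, hg, mul_ite, mul_zero]
    rfl
  · intro p _ hp
    refine if_neg ?_
    rintro ⟨-, hr⟩
    refine hp (Tab.mem_cperm.mpr fun x => ?_)
    have := congrFun hr (q⁻¹ x)
    simpa [tabOf, flipFilling] using this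

lemma e_trans (s : X ≃ μ.cells) (q : Equiv.Perm X) (f : X → ℕ) :
    (tabOf μ (q.trans s)).e f = (tabOf μ s).e (f ∘ q.symm) :=
  e_map (tabOf μ s) q f

end Transpose

/-- Transposing the first and the third diagram keeps a symmetrised value nonzero. -/
theorem twist {l l' μ ν ν' : YoungDiagram} (a : X ≃ l.cells) (b : X ≃ μ.cells) (c : X ≃ ν.cells)
    (hl : ∀ p : ℕ × ℕ, p ∈ l'.cells ↔ p.swap ∈ l.cells)
    (hν : ∀ p : ℕ × ℕ, p ∈ ν'.cells ↔ p.swap ∈ ν.cells)
    (h : ∃ f₁ f₂ f₃, tsum (tabOf l a) (tabOf μ b) (tabOf ν c) f₁ f₂ f₃ ≠ 0) :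
    ∃ (a' : X ≃ l'.cells) (c' : X ≃ ν'.cells) (g₁ g₂ g₃ : X → ℕ),
      tsum (tabOf l' a') (tabOf μ b) (tabOf ν' c') g₁ g₂ g₃ ≠ 0 := by
  obtain ⟨f₁, g₂, f₃, hf⟩ := h
  obtain ⟨s₀, -, hs₀⟩ := Finset.exists_ne_zero_of_sum_ne_zero hf
  have m₁ := mem_rowSupp_of_e_ne_zero a s₀ f₁ (left_ne_zero_of_mul (left_ne_zero_of_mul hs₀))
  have m₃ := mem_rowSupp_of_e_ne_zero c s₀ f₃ (right_ne_zero_of_mul hs₀)
  set T : (X → ℕ) → (X → ℕ) → ℚ := fun u w => tsum (tabOf l a) (tabOf μ b) (tabOf ν c) u g₂ w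
  set T' : (X → ℕ) → (X → ℕ) → ℚ := fun g w => ∑ u ∈ rowSupp l a, ∑ v ∈ rowSupp ν c,
    T u v * twistKer l a u g * twistKer ν c v w
  have hpos : 0 < ∑ u ∈ rowSupp l a, ∑ v ∈ rowSupp ν c, T u v * T u v := by
    refine Finset.sum_pos' (fun u _ => Finset.sum_nonneg fun v _ => mul_self_nonneg _)
      ⟨f₁, m₁, ?_⟩
    refine Finset.sum_pos' (fun v _ => mul_self_nonneg _) ⟨f₃, m₃, ?_⟩
    exact mul_self_pos.mpr hf
  have hT : ∀ u v, T u v = ∑ s : Equiv.Perm X, (tabOf μ b).e (g₂ ∘ s) *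
      (twistKer l a u ((tabOf l a).col ∘ s.symm) * twistKer ν c v ((tabOf ν c).col ∘ s.symm)) := by
    intro u v
    refine Finset.sum_congr rfl fun s _ => ?_
    rw [e_comp_eq_twistKer a s u, e_comp_eq_twistKer c s v]
    linear_combination (twistKer l a u ((tabOf l a).col ∘ s.symm) * (tabOf μ b).e (g₂ ∘ s) *
      twistKer ν c v ((tabOf ν c).col ∘ s.symm)) * sg_mul_self s
  have hsq : ∑ u ∈ rowSupp l a, ∑ v ∈ rowSupp ν c, T u v * T u v =
      ∑ s : Equiv.Perm X, (tabOf μ b).e (g₂ ∘ s) *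
        T' ((tabOf l a).col ∘ s.symm) ((tabOf ν c).col ∘ s.symm) := by
    have e : ∀ u v, T u v * T u v = ∑ s : Equiv.Perm X, (tabOf μ b).e (g₂ ∘ s) *
        (T u v * twistKer l a u ((tabOf l a).col ∘ s.symm) *
          twistKer ν c v ((tabOf ν c).col ∘ s.symm)) := by
      intro u v
      conv_lhs => rw [hT u v, mul_comm, ← hT u v]
      conv_lhs => arg 2; rw [hT u v]
      rw [Finset.mul_sum]
      exact Finset.sum_congr rfl fun s _ => by ring
    simp only [e, T', Finset.mul_sum]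
    exact (Finset.sum_congr rfl fun u _ => Finset.sum_comm).trans Finset.sum_comm
  rw [hsq] at hpos
  obtain ⟨s, -, hs⟩ := Finset.exists_ne_zero_of_sum_ne_zero hpos.ne'
  have hne := right_ne_zero_of_mul hs
  set g₁ := (tabOf l a).col ∘ s.symm
  set g₃ := (tabOf ν c).col ∘ s.symm
  have hT' : T' g₁ g₃ = ∑ q ∈ (tabOf l a).cperm, ∑ r ∈ (tabOf ν c).cperm,
      tsum (tabOf l' (q.trans (flipFilling a hl))) (tabOf μ b)
        (tabOf ν' (r.trans (flipFilling c hν))) g₁ g₂ g₃ := by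
    have e : T' g₁ g₃ = ∑ p : Equiv.Perm X, (tabOf μ b).e (g₂ ∘ p) *
        ((∑ u ∈ rowSupp l a, (tabOf l a).e (u ∘ p) * twistKer l a u g₁) *
         (∑ v ∈ rowSupp ν c, (tabOf ν c).e (v ∘ p) * twistKer ν c v g₃)) := by
      simp only [T', T, tsum, Finset.sum_mul, Finset.mul_sum]
      refine ((Finset.sum_congr rfl fun u _ => Finset.sum_comm).trans Finset.sum_comm).trans ?_
      refine Finset.sum_congr rfl fun p _ => ?_
      rw [Finset.sum_comm (s := rowSupp l a)]
      repeat' (refine Finset.sum_congr rfl fun _ _ => ?_)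
      ring
    rw [e]
    simp only [twist_e a hl, twist_e c hν, tsum, e_trans, Finset.sum_mul, Finset.mul_sum]
    refine ((Finset.sum_congr rfl fun p _ => Finset.sum_comm).trans Finset.sum_comm).trans ?_
    refine Finset.sum_congr rfl fun q _ => ?_
    rw [Finset.sum_comm]
    refine Finset.sum_congr rfl fun r _ => Finset.sum_congr rfl fun p _ => ?_
    simp only [Function.comp_assoc]
    linear_combination ((tabOf μ b).e (g₂ ∘ p) *
      ((tabOf l' (flipFilling a hl)).e (g₁ ∘ p ∘ ⇑(q⁻¹ : Equiv.Perm X)) *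
        (tabOf ν' (flipFilling c hν)).e (g₃ ∘ p ∘ ⇑(r⁻¹ : Equiv.Perm X)))) * sg_mul_self p
  rw [hT'] at hne
  obtain ⟨q, -, hq⟩ := Finset.exists_ne_zero_of_sum_ne_zero hne
  obtain ⟨r, -, hr⟩ := Finset.exists_ne_zero_of_sum_ne_zero hq
  exact ⟨_, _, g₁, g₂, g₃, hr⟩

end Vale.Agent.P197
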