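import Vale.Agent.P197.Sum

/-!
Stacking of column structures, and the gluing lemma for the Kronecker polynomial.
-/

namespace Vale.Agent.P197

open Finset MvPolynomial

lemma sum_range_le (S : Finset ℕ) :
    ∑ x ∈ range S.card, x ≤ ∑ x ∈ S, x ∧
      ((∑ x ∈ range S.card, x = ∑ x ∈ S, x) → S = range S.card) := by
  classical
  set t := S.card
  set R := range t
  have hcard : (S \ R).card = (R \ S).card := by
    have h₁ := Finset.card_sdiff_add_card_inter S R
    have h₂ := Finset.card_sdiff_add_card_inter R S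
    rw [Finset.inter_comm] at h₂
    have h₃ : R.card = S.card := Finset.card_range t
    omega
  have hS : (S \ R).card * t ≤ ∑ x ∈ S \ R, x := by
    have := Finset.card_nsmul_le_sum (S \ R) (fun x => x) t (by
      intro x hx
      simp only [R, mem_sdiff, mem_range, not_lt] at hx
      exact hx.2)
    simpa using this
  have hR : ∑ x ∈ R \ S, x + (R \ S).card ≤ (R \ S).card * t := by
    have := Finset.sum_le_card_nsmul (R \ S) (fun x => x + 1) t (by
      intro x hx
      simp only [R, mem_sdiff, mem_range] at hx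
      exact hx.1)
    simpa [Finset.sum_add_distrib] using this
  have e₁ := Finset.sum_inter_add_sum_sdiff S R (fun x => x)
  have e₂ := Finset.sum_inter_add_sum_sdiff R S (fun x => x)
  rw [Finset.inter_comm] at e₂
  rw [hcard] at hS
  refine ⟨by omega, fun h => ?_⟩
  have h0 : (R \ S).card = 0 := by omega
  have hsub : R ⊆ S := Finset.sdiff_eq_empty_iff_subset.mp (Finset.card_eq_zero.mp h0)
  exact (Finset.eq_of_subset_of_card_le hsub (le_of_eq (Finset.card_range t).symm)).symm

section Weight

variable {X ι : Type} [Fintype X] [DecidableEq X] [DecidableEq ι] (T : Tab X ι)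

lemma Tab.image_row (q : ι) :
    (univ.filter fun x => T.col x = q).image T.row = range (T.len q) := by
  refine Finset.eq_of_subset_of_card_le ?_ ?_
  · intro r hr
    simp only [mem_image, mem_filter, mem_univ, true_and] at hr
    obtain ⟨x, rfl, rfl⟩ := hr
    exact mem_range.mpr (T.lt x)
  · rw [card_range, Finset.card_image_of_injOn]
    · exact le_rfl
    · intro x hx y hy hxy
      simp only [Finset.coe_filter, Set.mem_setOf_eq, mem_univ, true_and] at hx hy
      exact T.inj x y (hx.trans hy.symm) hxy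

/-- Among column-injective labellings, the rows have the least total weight. -/
lemma Tab.weight (f : X → ℕ) (hf : ∀ x y, T.col x = T.col y → f x = f y → x = y)
    (h : ∑ x, f x ≤ ∑ x, T.row x) :
    ∃ c ∈ T.cperm, f = T.row ∘ c := by
  classical
  have hinj : ∀ g : X → ℕ, (∀ x y, T.col x = T.col y → g x = g y → x = y) → ∀ q,
      ∑ x ∈ univ.filter (fun x => T.col x = q), g x =
        ∑ r ∈ (univ.filter fun x => T.col x = q).image g, r := by
    intro g hg q
    rw [Finset.sum_image]
    intro x hx y hy hxy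
    simp only [Finset.coe_filter, Set.mem_setOf_eq, mem_univ, true_and] at hx hy
    exact hg x y (hx.trans hy.symm) hxy
  have hcard : ∀ q, ((univ.filter fun x => T.col x = q).image f).card = T.len q := by
    intro q
    rw [Finset.card_image_of_injOn]
    · rfl
    · intro x hx y hy hxy
      simp only [Finset.coe_filter, Set.mem_setOf_eq, mem_univ, true_and] at hx hy
      exact hf x y (hx.trans hy.symm) hxy
  have hle : ∀ q ∈ univ.image T.col,
      ∑ x ∈ univ.filter (fun x => T.col x = q), T.row x ≤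
        ∑ x ∈ univ.filter (fun x => T.col x = q), f x := by
    intro q _
    rw [hinj T.row T.inj q, hinj f hf q, T.image_row q, ← hcard q]
    exact (sum_range_le _).1
  have htot : ∀ g : X → ℕ, ∑ x, g x =
      ∑ q ∈ univ.image T.col, ∑ x ∈ univ.filter (fun x => T.col x = q), g x := by
    intro g
    exact (Finset.sum_fiberwise_of_maps_to (fun x _ => mem_image_of_mem _ (mem_univ x)) g).symm
  have hge := Finset.sum_le_sum hle
  rw [← htot, ← htot] at hge
  have heq : ∑ x, T.row x = ∑ x, f x := le_antisymm hge h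
  rw [htot, htot] at heq
  have hq := (Finset.sum_eq_sum_iff_of_le hle).mp heq
  have hrange : ∀ x, f x < T.len (T.col x) := by
    intro x
    have h1 := hq (T.col x) (mem_image_of_mem _ (mem_univ x))
    rw [hinj T.row T.inj, hinj f hf, T.image_row, ← hcard] at h1
    have h2 := (sum_range_le _).2 h1
    have h3 : f x ∈ (univ.filter fun y => T.col y = T.col x).image f :=
      mem_image_of_mem _ (by simp)
    rw [h2, hcard] at h3
    exact mem_range.mp h3
  have hex : ∀ x, ∃ y, T.col y = T.col x ∧ T.row y = f x := by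
    intro x
    have : f x ∈ (univ.filter fun y => T.col y = T.col x).image T.row := by
      rw [T.image_row]; exact mem_range.mpr (hrange x)
    simpa using this
  choose g hg₁ hg₂ using hex
  have hgi : Function.Injective g := by
    intro x y hxy
    exact hf x y (by rw [← hg₁ x, ← hg₁ y, hxy]) (by rw [← hg₂ x, ← hg₂ y, hxy])
  refine ⟨Equiv.ofBijective g (Finite.injective_iff_bijective.mp hgi), ?_, ?_⟩
  · simp [hg₁]
  · funext x
    simp [hg₂]

/-- The Vandermonde-like antisymmetrisation with the rows shifted by `t` in every column. -/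
def Tab.minor (Q : ℕ) (t : ι → ℕ) (s : X → ℕ) : ℚ :=
  ∑ c ∈ T.cperm, sg c * ∏ x, (Q : ℚ) ^ ((t (T.col x) + T.row (c x)) * s x)

lemma Tab.minor_eq_zero (Q : ℕ) (t : ι → ℕ) {s : X → ℕ} {x y : X} (hxy : x ≠ y)
    (hc : T.col x = T.col y) (hs : s x = s y) : T.minor Q t s = 0 := by
  have hτ : Equiv.swap x y ∈ T.cperm := by
    rw [Tab.mem_cperm]
    intro z
    rw [Equiv.swap_apply_def]
    split_ifs with h₁ h₂
    · rw [h₁, hc]
    · rw [h₂, hc]
    · rfl
  set τ := Equiv.swap x y
  have h : T.minor Q t s = - T.minor Q t s := by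
    conv_rhs => rw [Tab.minor]
    rw [← Finset.sum_neg_distrib]
    refine Finset.sum_equiv (Equiv.mulRight τ) ?_ ?_
    · intro c
      constructor
      · intro h; exact Tab.mul_mem_cperm h hτ
      · intro h
        have := Tab.mul_mem_cperm h hτ
        simpa [mul_assoc, τ] using this
    · intro c hc'
      have h1 : sg (c * τ) = - sg c := by
        simp [sg, τ, Equiv.Perm.sign_swap hxy]
      simp only [Equiv.coe_mulRight, h1, neg_mul, neg_neg]
      congr 1
      rw [← Equiv.prod_comp τ]
      refine Finset.prod_congr rfl fun z _ => ?_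
      have e1 : T.col (τ z) = T.col z := Tab.mem_cperm.mp hτ z
      have e2 : s (τ z) = s z := by
        simp only [τ, Equiv.swap_apply_def]
        split_ifs with h₁ h₂
        · rw [h₁, hs]
        · rw [h₂, hs]
        · rfl
      simp [e1, e2, Equiv.Perm.mul_apply]
  linarith

lemma Tab.minor_comp (Q : ℕ) (t : ι → ℕ) {d : Equiv.Perm X} (hd : d ∈ T.cperm) :
    T.minor Q t (T.row ∘ d) = sg d * T.minor Q t T.row := by
  rw [Tab.minor, Tab.minor, Finset.mul_sum]
  refine Finset.sum_equiv (Equiv.mulRight d⁻¹) ?_ ?_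
  · intro c
    constructor
    · intro h; exact Tab.mul_mem_cperm h (Tab.inv_mem_cperm hd)
    · intro h
      have := Tab.mul_mem_cperm h hd
      simpa [mul_assoc] using this
  · intro c _
    simp only [Equiv.coe_mulRight, sg_mul, sg_inv]
    rw [← mul_assoc (sg d), show sg d * (sg c * sg d) = sg c * (sg d * sg d) from by ring,
      sg_mul_self, mul_one]
    congr 1
    conv_rhs => rw [← Equiv.prod_comp d]
    refine Finset.prod_congr rfl fun z _ => ?_
    simp [Tab.mem_cperm.mp hd z, Equiv.Perm.mul_apply]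

/-- For a large base the antisymmetrisation at the rows does not vanish. -/
lemma Tab.minor_row_ne_zero (t : ι → ℕ) :
    T.minor (T.cperm.card + 1) t T.row ≠ 0 := by
  classical
  set Q := T.cperm.card + 1 with hQdef
  set E : Equiv.Perm X → ℕ := fun c => ∑ x, (t (T.col x) + T.row (c x)) * T.row x with hE
  have hlt : ∀ c ∈ T.cperm.erase 1, E c + 1 ≤ E 1 := by
    intro c hc
    obtain ⟨hc1, hc⟩ := mem_erase.mp hc
    have hdec : ∀ c : Equiv.Perm X, E c =
        (∑ x, t (T.col x) * T.row x) + ∑ x, T.row (c x) * T.row x := by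
      intro c
      simp only [hE, add_mul, Finset.sum_add_distrib]
    rw [hdec c, hdec 1]
    obtain ⟨x₀, hx₀⟩ : ∃ x, T.row (c x) ≠ T.row x := by
      by_contra h
      push_neg at h
      exact hc1 (Equiv.ext fun x => T.inj _ _ (Tab.mem_cperm.mp hc x) (h x))
    have hpos : (0 : ℤ) < ∑ x, ((T.row (c x) : ℤ) - T.row x) ^ 2 := by
      refine lt_of_lt_of_le ?_ (Finset.single_le_sum (fun x _ => sq_nonneg _) (mem_univ x₀))
      have : ((T.row (c x₀) : ℤ) - T.row x₀) ≠ 0 := by omega
      positivity
    have hperm : ∑ x, ((T.row (c x) : ℤ)) ^ 2 = ∑ x, ((T.row x : ℤ)) ^ 2 :=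
      Equiv.sum_comp c fun x => ((T.row x : ℤ)) ^ 2
    have : (∑ x, (T.row (c x) : ℤ) * T.row x) < ∑ x, (T.row x : ℤ) * T.row x := by
      simp only [sub_sq, Finset.sum_add_distrib, Finset.sum_sub_distrib] at hpos
      have e : ∑ x, (2 : ℤ) * (T.row (c x) : ℤ) * T.row x =
          2 * ∑ x, (T.row (c x) : ℤ) * T.row x := by
        rw [Finset.mul_sum]; exact Finset.sum_congr rfl fun x _ => by ring
      have e' : ∑ x, (T.row x : ℤ) * T.row x = ∑ x, ((T.row x : ℤ)) ^ 2 :=
        Finset.sum_congr rfl fun x _ => by ring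
      rw [e'] ; rw [e, hperm] at hpos
      linarith
    have : (∑ x, T.row (c x) * T.row x) < ∑ x, T.row ((1 : Equiv.Perm X) x) * T.row x := by
      simp only [Equiv.Perm.one_apply]
      exact_mod_cast this
    omega
  have hval : T.minor Q t T.row = ∑ c ∈ T.cperm, sg c * (Q : ℚ) ^ E c := by
    simp only [Tab.minor, hE, Finset.prod_pow_eq_pow_sum]
  rw [hval, ← Finset.add_sum_erase _ _ T.one_mem_cperm, sg_one, one_mul]
  by_cases hne : T.cperm.erase 1 = ∅
  · rw [hne]
    have : (Q : ℚ) ≠ 0 := by positivity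
    simp [this]
  have hQ : (1 : ℚ) ≤ Q := by exact_mod_cast Nat.le_add_left 1 _
  obtain ⟨c₀, hc₀⟩ := Finset.nonempty_iff_ne_empty.mpr hne
  have hE1 : 1 ≤ E 1 := le_trans (Nat.le_add_left 1 _) (hlt c₀ hc₀)
  intro h0
  have hb : |∑ c ∈ T.cperm.erase 1, sg c * (Q : ℚ) ^ E c| ≤
      ((T.cperm.erase 1).card : ℚ) * (Q : ℚ) ^ (E 1 - 1) := by
    refine le_trans (Finset.abs_sum_le_sum_abs _ _) ?_
    refine le_trans (Finset.sum_le_sum (g := fun _ => (Q : ℚ) ^ (E 1 - 1)) ?_) (by simp)
    intro c hc
    have hs : |sg c| = 1 := by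
      rcases Int.units_eq_one_or (Equiv.Perm.sign c) with h | h <;> simp [sg, h]
    rw [abs_mul, hs, one_mul, abs_of_nonneg (by positivity)]
    exact pow_le_pow_right₀ hQ (by have := hlt c hc; omega)
  have hcard : ((T.cperm.erase 1).card : ℚ) < Q := by
    have : (T.cperm.erase 1).card ≤ T.cperm.card := Finset.card_erase_le
    exact_mod_cast Nat.lt_succ_of_le this
  have hpow : (Q : ℚ) ^ E 1 = Q * (Q : ℚ) ^ (E 1 - 1) := by
    rw [← pow_succ']; congr 1; omega
  have : 0 < (Q : ℚ) ^ (E 1 - 1) := by positivity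
  rw [eq_neg_of_add_eq_zero_right h0, abs_neg, hpow, abs_of_nonneg (by positivity)] at hb
  nlinarith

end Weight

section Glue

variable {O I : Type} [Fintype O] [DecidableEq O] [Fintype I] [DecidableEq I]
  {ι : Type} [DecidableEq ι]

/-- In every column, put the letters of `B` below those of `A`. -/
def Tab.stack (A : Tab O ι) (B : Tab I ι) : Tab (O ⊕ I) ι where
  col := Sum.elim A.col B.col
  row := Sum.elim A.row fun i => A.len (B.col i) + B.row i
  inj x y h₁ h₂ := by
    rcases x with x | x <;> rcases y with y | y <;> simp at h₁ h₂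
    · rw [A.inj x y h₁ h₂]
    · have := A.row_lt_len x
      rw [h₁] at this
      omega
    · have := A.row_lt_len y
      rw [← h₁] at this
      omega
    · rw [h₁] at h₂
      rw [B.inj x y h₁ (by omega)]
  lt x := by
    rw [card_filter_sum]
    rcases x with x | x
    · refine lt_of_lt_of_le (A.lt x) (le_trans ?_ (Nat.le_add_right _ _))
      exact Finset.card_le_card fun y hy =>
        Finset.mem_filter.mpr ⟨mem_univ y, (Finset.mem_filter.mp hy).2⟩
    · refine lt_of_lt_of_le (Nat.add_lt_add_left (B.lt x) _) ?_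
      simp only [Tab.len, Sum.elim_inr]
      refine Nat.add_le_add ?_ ?_ <;>
        exact Finset.card_le_card fun y hy =>
        Finset.mem_filter.mpr ⟨mem_univ y, (Finset.mem_filter.mp hy).2⟩

lemma stack_mem_cperm (A : Tab O ι) (B : Tab I ι) (a : Equiv.Perm O) (b : Equiv.Perm I) :
    Equiv.sumCongr a b ∈ (A.stack B).cperm ↔ a ∈ A.cperm ∧ b ∈ B.cperm := by
  simp [Tab.stack, Sum.forall]

omit [DecidableEq O] [DecidableEq I] in
lemma preserves_or (c : Equiv.Perm (O ⊕ I)) (h : ∀ o : O, (c (Sum.inl o)).isLeft) :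
    ∃ a b, c = Equiv.sumCongr a b := by
  have hc : c ∈ (Equiv.Perm.sumCongrHom O I).range := by
    refine Equiv.Perm.mem_sumCongrHom_range_of_perm_mapsTo_inl ?_
    rintro _ ⟨o, rfl⟩
    obtain ⟨o', ho'⟩ := Sum.isLeft_iff.mp (h o)
    exact ⟨o', ho'.symm⟩
  obtain ⟨⟨a, b⟩, rfl⟩ := hc
  exact ⟨a, b, rfl⟩

end Glue

end Vale.Agent.P197
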