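import Vale.Agent.P197.Glue

/-!
The gluing theorem: positivity of an outer and an inner triple gives positivity of the stacked
triple, when the outer letters of the first two tableaux are determined by their column counts.
-/

namespace Vale.Agent.P197

open Finset MvPolynomial

section

variable {O I α β : Type} [Fintype O] [Fintype I]

lemma mon_map_inl (f : O → α) (g : I → β) (a : α) :
    mon (Sum.map f g) (Sum.inl a) = mon f a := by
  classical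
  rw [mon_apply, mon_apply, card_filter_sum]
  simp

lemma mon_map_inr (f : O → α) (g : I → β) (b : β) :
    mon (Sum.map f g) (Sum.inr b) = mon g b := by
  classical
  rw [mon_apply, mon_apply, card_filter_sum]
  simp

lemma mon_map_eq_iff {f f' : O → α} {g g' : I → β} :
    mon (Sum.map f g) = mon (Sum.map f' g') ↔ mon f = mon f' ∧ mon g = mon g' := by
  constructor
  · intro h
    refine ⟨Finsupp.ext fun a => ?_, Finsupp.ext fun b => ?_⟩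
    · rw [← mon_map_inl f g, ← mon_map_inl f' g', h]
    · rw [← mon_map_inr f g, ← mon_map_inr f' g', h]
  · rintro ⟨h₁, h₂⟩
    ext (a | b)
    · rw [mon_map_inl, mon_map_inl, h₁]
    · rw [mon_map_inr, mon_map_inr, h₂]

end

section

variable {O I : Type} [Fintype O] [DecidableEq O] [Fintype I] [DecidableEq I]
  {ι₁ ι₂ ι₃ : Type} [DecidableEq ι₁] [DecidableEq ι₂] [DecidableEq ι₃]

lemma mem_inl_iff (x : O ⊕ I) :
    x ∈ (univ : Finset O).map ⟨Sum.inl, Sum.inl_injective⟩ ↔ x.isLeft = true := by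
  cases x <;> simp

lemma stack_row_lt_iff {ι : Type} [DecidableEq ι] (A : Tab O ι) (B : Tab I ι) (h : ℕ)
    (hA : ∀ o, A.row o < h) (hB : ∀ i, A.len (B.col i) = h) (x : O ⊕ I) :
    (A.stack B).row x < h ↔ x.isLeft = true := by
  cases x with
  | inl o => simp [Tab.stack, hA]
  | inr i => simp [Tab.stack, hB]

lemma left_count {ι : Type} [DecidableEq ι] (A : Tab O ι) (B : Tab I ι)
    {c : Equiv.Perm (O ⊕ I)} (hc : c ∈ (A.stack B).cperm) (q : ι) :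
    ((univ.filter fun x => (c x).isLeft = true).filter fun x => (A.stack B).col x = q).card =
      A.len q := by
  rw [Tab.len, Finset.filter_filter]
  have h : (univ.filter fun x => (c x).isLeft = true ∧ (A.stack B).col x = q).card =
      (univ.filter fun y : O ⊕ I => y.isLeft = true ∧ (A.stack B).col y = q).card := by
    refine Finset.card_equiv c ?_
    intro x
    simp [Tab.mem_cperm.mp hc x]
  rw [h, card_filter_sum]
  simp [Tab.stack]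

lemma mon_sum_snd_snd {X : Type} [Fintype X] [DecidableEq X] {f g : X → ℕ × ℕ × ℕ} (h : mon g = mon f) :
    ∑ x, (g x).2.2 = ∑ x, (f x).2.2 := by
  obtain ⟨s, rfl⟩ := exists_perm_of_mon_eq h
  exact Equiv.sum_comp s fun x => (f x).2.2

/-- The substitution separating the outer and the inner rows. -/
noncomputable def glueSub (h Q N : ℕ) (v : ℕ × ℕ × ℕ) :
    MvPolynomial ((ℕ × ℕ × ℕ) ⊕ (ℕ × ℕ × ℕ)) ℚ :=
  if v.1 < h ∧ v.2.1 < h then X (Sum.inl v)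
  else if h ≤ v.1 ∧ h ≤ v.2.1 then
    ∑ s ∈ range N, C ((Q : ℚ) ^ (v.2.2 * s)) * X (Sum.inr (v.1 - h, v.2.1 - h, s))
  else 0

lemma glueSub_outer (h Q N : ℕ) {u v : ℕ} (w : ℕ) (hu : u < h) (hv : v < h) :
    glueSub h Q N (u, v, w) = X (Sum.inl (u, v, w)) := by
  rw [glueSub, if_pos ⟨hu, hv⟩]

lemma glueSub_inner (h Q N u v w : ℕ) :
    glueSub h Q N (h + u, h + v, w) =
      ∑ s ∈ range N, C ((Q : ℚ) ^ (w * s)) * X (Sum.inr (u, v, s)) := by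
  have h₁ : ¬ (h + u < h ∧ h + v < h) := fun e => absurd e.1 (by omega)
  rw [glueSub, if_neg h₁, if_pos ⟨Nat.le_add_right h u, Nat.le_add_right h v⟩]
  simp only [Nat.add_sub_cancel_left]

lemma glueSub_mixed (h Q N : ℕ) {u v : ℕ} (w : ℕ) (huv : ¬ (u < h ↔ v < h)) :
    glueSub h Q N (u, v, w) = 0 := by
  rw [glueSub, if_neg (fun e => huv (iff_of_true e.1 e.2)),
    if_neg (fun e => huv (iff_of_false (not_lt.mpr e.1) (not_lt.mpr e.2)))]

lemma coeff_prod_split (fO gO : O → ℕ × ℕ × ℕ) (fI : I → ℕ × ℕ × ℕ) (u v w : I → ℕ) (Q N : ℕ) :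
    coeff (mon (Sum.map fO fI))
      ((∏ o, X (Sum.inl (gO o))) *
        ∏ i, ∑ s ∈ range N, C ((Q : ℚ) ^ (w i * s)) * X (Sum.inr (u i, v i, s))) =
      (if mon gO = mon fO then 1 else 0) *
        ∑ s ∈ Fintype.piFinset (fun _ : I => range N),
          if mon (fun i => (u i, v i, s i)) = mon fI then ∏ i, (Q : ℚ) ^ (w i * s i) else 0 := by
  rw [Finset.prod_univ_sum, Finset.mul_sum, coeff_sum, Finset.mul_sum]
  refine Finset.sum_congr rfl fun s _ => ?_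
  rw [Finset.prod_mul_distrib, ← map_prod, mul_left_comm, coeff_C_mul]
  have e : ((∏ o, X (Sum.inl (gO o))) * ∏ i, X (Sum.inr (u i, v i, s i)) :
      MvPolynomial ((ℕ × ℕ × ℕ) ⊕ (ℕ × ℕ × ℕ)) ℚ) =
      monomial (mon (Sum.map gO fun i => (u i, v i, s i))) 1 := by
    rw [← monomial_mon, Fintype.prod_sum_type]
    rfl
  rw [e, coeff_monomial]
  simp only [mon_map_eq_iff]
  by_cases h₁ : mon gO = mon fO <;> by_cases h₂ : mon (fun i => (u i, v i, s i)) = mon fI <;>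
    simp [h₁, h₂]

variable (A₁ : Tab O ι₁) (B₁ : Tab I ι₁) (A₂ : Tab O ι₂) (B₂ : Tab I ι₂)
  (A₃ : Tab O ι₃) (B₃ : Tab I ι₃)

lemma coeff_prod_stack (fO : O → ℕ × ℕ × ℕ) (fI : I → ℕ × ℕ × ℕ) (h Q N : ℕ)
    (hA₁ : ∀ o, A₁.row o < h) (hB₁ : ∀ i, A₁.len (B₁.col i) = h)
    (hA₂ : ∀ o, A₂.row o < h) (hB₂ : ∀ i, A₂.len (B₂.col i) = h)
    (a₁ a₂ : Equiv.Perm O) (b₁ b₂ : Equiv.Perm I) (c₃ : Equiv.Perm (O ⊕ I)) :
    coeff (mon (Sum.map fO fI)) (∏ x, glueSub h Q N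
      ((A₁.stack B₁).row (Equiv.sumCongr a₁ b₁ x), (A₂.stack B₂).row (Equiv.sumCongr a₂ b₂ x),
        (A₃.stack B₃).row (c₃ x))) =
      (if mon (fun o => (A₁.row (a₁ o), A₂.row (a₂ o), (A₃.stack B₃).row (c₃ (Sum.inl o))))
          = mon fO then 1 else 0) *
        ∑ s ∈ Fintype.piFinset (fun _ : I => range N),
          if mon (fun i => (B₁.row (b₁ i), B₂.row (b₂ i), s i)) = mon fI
            then ∏ i, (Q : ℚ) ^ ((A₃.stack B₃).row (c₃ (Sum.inr i)) * s i) else 0 := by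
  rw [← coeff_prod_split, Fintype.prod_sum_type]
  congr 2
  · refine Finset.prod_congr rfl fun o _ => ?_
    exact glueSub_outer h Q N _ (hA₁ (a₁ o)) (hA₂ (a₂ o))
  · refine Finset.prod_congr rfl fun i _ => ?_
    show glueSub h Q N (A₁.len (B₁.col (b₁ i)) + B₁.row (b₁ i),
      A₂.len (B₂.col (b₂ i)) + B₂.row (b₂ i), _) = _
    rw [hB₁, hB₂, glueSub_inner]

lemma same_side (fO : O → ℕ × ℕ × ℕ) (fI : I → ℕ × ℕ × ℕ) (h Q N : ℕ)
    (hA₁ : ∀ o, A₁.row o < h) (hB₁ : ∀ i, A₁.len (B₁.col i) = h)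
    (hA₂ : ∀ o, A₂.row o < h) (hB₂ : ∀ i, A₂.len (B₂.col i) = h)
    (c₁ c₂ c₃ : Equiv.Perm (O ⊕ I))
    (hne : coeff (mon (Sum.map fO fI)) (∏ x, glueSub h Q N ((A₁.stack B₁).row (c₁ x),
      (A₂.stack B₂).row (c₂ x), (A₃.stack B₃).row (c₃ x))) ≠ 0) (x : O ⊕ I) :
    (c₁ x).isLeft = (c₂ x).isLeft := by
  by_contra hx
  refine hne ?_
  have hm : ¬ ((A₁.stack B₁).row (c₁ x) < h ↔ (A₂.stack B₂).row (c₂ x) < h) := by
    rw [stack_row_lt_iff A₁ B₁ h hA₁ hB₁, stack_row_lt_iff A₂ B₂ h hA₂ hB₂]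
    exact fun e => hx (Bool.eq_iff_iff.mpr e)
  rw [Finset.prod_eq_zero (mem_univ x) (glueSub_mixed h Q N _ hm), coeff_zero]

lemma split_of_ne_zero (fO : O → ℕ × ℕ × ℕ) (fI : I → ℕ × ℕ × ℕ) (h Q N : ℕ)
    (hA₁ : ∀ o, A₁.row o < h) (hB₁ : ∀ i, A₁.len (B₁.col i) = h)
    (hA₂ : ∀ o, A₂.row o < h) (hB₂ : ∀ i, A₂.len (B₂.col i) = h)
    (uniq : ∀ Z : Finset (O ⊕ I),
      (∀ q, (Z.filter fun x => (A₁.stack B₁).col x = q).card = A₁.len q) →
      (∀ q, (Z.filter fun x => (A₂.stack B₂).col x = q).card = A₂.len q) →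
      Z = (univ : Finset O).map ⟨Sum.inl, Sum.inl_injective⟩)
    (hwO : ∑ o, (fO o).2.2 = ∑ o, A₃.row o)
    {c₁ c₂ c₃ : Equiv.Perm (O ⊕ I)} (h₁ : c₁ ∈ (A₁.stack B₁).cperm)
    (h₂ : c₂ ∈ (A₂.stack B₂).cperm) (h₃ : c₃ ∈ (A₃.stack B₃).cperm)
    (hne : coeff (mon (Sum.map fO fI)) (∏ x, glueSub h Q N ((A₁.stack B₁).row (c₁ x),
      (A₂.stack B₂).row (c₂ x), (A₃.stack B₃).row (c₃ x))) ≠ 0) :
    ∃ a₁ b₁ a₂ b₂ a₃ b₃, c₁ = Equiv.sumCongr a₁ b₁ ∧ c₂ = Equiv.sumCongr a₂ b₂ ∧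
      c₃ = Equiv.sumCongr a₃ b₃ := by
  have hsame := same_side A₁ B₁ A₂ B₂ A₃ B₃ fO fI h Q N hA₁ hB₁ hA₂ hB₂ c₁ c₂ c₃ hne
  have hZ := uniq (univ.filter fun x => (c₁ x).isLeft = true)
    (fun q => left_count A₁ B₁ h₁ q)
    (fun q => by
      have := left_count A₂ B₂ h₂ q
      simpa only [hsame] using this)
  have hl : ∀ o : O, (c₁ (Sum.inl o)).isLeft = true := by
    intro o
    have : (Sum.inl o : O ⊕ I) ∈ univ.filter fun x => (c₁ x).isLeft = true := by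
      rw [hZ, mem_inl_iff]; rfl
    simpa using this
  obtain ⟨a₁, b₁, rfl⟩ := preserves_or c₁ hl
  obtain ⟨a₂, b₂, rfl⟩ := preserves_or c₂ fun o => by rw [← hsame]; exact hl o
  rw [coeff_prod_stack A₁ B₁ A₂ B₂ A₃ B₃ fO fI h Q N hA₁ hB₁ hA₂ hB₂] at hne
  have hmon : mon (fun o => (A₁.row (a₁ o), A₂.row (a₂ o),
      (A₃.stack B₃).row (c₃ (Sum.inl o)))) = mon fO := by
    by_contra hc
    rw [if_neg hc, zero_mul] at hne
    exact hne rfl
  have hw := mon_sum_snd_snd hmon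
  rw [hwO] at hw
  obtain ⟨d, hd, hd'⟩ := A₃.weight (fun o => (A₃.stack B₃).row (c₃ (Sum.inl o)))
    (by
      intro o o' hq hr
      have := (A₃.stack B₃).inj (c₃ (Sum.inl o)) (c₃ (Sum.inl o'))
        (by rw [Tab.mem_cperm.mp h₃, Tab.mem_cperm.mp h₃]; exact hq) hr
      exact Sum.inl_injective (c₃.injective this))
    hw.le
  obtain ⟨a₃, b₃, rfl⟩ := preserves_or c₃ fun o => by
    have e := congrFun hd' o
    have ec := Tab.mem_cperm.mp h₃ (Sum.inl o)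
    have lt := A₃.row_lt_len (d o)
    rw [Tab.mem_cperm.mp hd o] at lt
    cases hc : c₃ (Sum.inl o) with
    | inl o' => rfl
    | inr i =>
      simp only [hc, Tab.stack, Sum.elim_inr, Sum.elim_inl, Function.comp_apply] at e ec
      rw [ec] at e
      omega
  exact ⟨a₁, b₁, a₂, b₂, a₃, b₃, rfl, rfl, rfl⟩

lemma inner_value (fI : I → ℕ × ℕ × ℕ) (hwI : ∑ i, (fI i).2.2 = ∑ i, B₃.row i)
    (t : ι₃ → ℕ) (Q : ℕ) :
    ∑ p ∈ B₁.cperm ×ˢ B₂.cperm ×ˢ B₃.cperm, sg p.1 * sg p.2.1 * sg p.2.2 *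
      ∑ s ∈ Fintype.piFinset (fun _ : I => range (Fintype.card I + 1)),
        (if mon (fun i => (B₁.row (p.1 i), B₂.row (p.2.1 i), s i)) = mon fI
          then ∏ i, (Q : ℚ) ^ ((t (B₃.col i) + B₃.row (p.2.2 i)) * s i) else 0) =
      coeff (mon fI) (kpoly B₁ B₂ B₃) * B₃.minor Q t B₃.row := by
  rw [coeff_kpoly, Finset.sum_mul]
  simp only [Finset.sum_product]
  refine Finset.sum_congr rfl fun b₁ _ => Finset.sum_congr rfl fun b₂ _ => ?_
  simp only [Finset.mul_sum]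
  rw [Finset.sum_comm]
  have hstep : ∀ s : I → ℕ, (∑ b₃ ∈ B₃.cperm, sg b₁ * sg b₂ * sg b₃ *
        (if mon (fun i => (B₁.row (b₁ i), B₂.row (b₂ i), s i)) = mon fI
          then ∏ i, (Q : ℚ) ^ ((t (B₃.col i) + B₃.row (b₃ i)) * s i) else 0)) =
      if mon (fun i => (B₁.row (b₁ i), B₂.row (b₂ i), s i)) = mon fI
        then sg b₁ * sg b₂ * B₃.minor Q t s else 0 := by
    intro s
    split_ifs <;> simp [Tab.minor, Finset.mul_sum, mul_assoc]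
  simp only [hstep]
  have hinj : Set.InjOn (fun d : Equiv.Perm I => B₃.row ∘ d) B₃.cperm := by
    intro d hd d' hd' he
    ext i
    refine B₃.inj _ _ ?_ (congrFun he i)
    rw [Tab.mem_cperm.mp hd, Tab.mem_cperm.mp hd']
  rw [← Finset.sum_subset (s₁ := B₃.cperm.image fun d : Equiv.Perm I => B₃.row ∘ d)]
  · rw [Finset.sum_image hinj]
    refine Finset.sum_congr rfl fun d hd => ?_
    rw [B₃.minor_comp Q t hd]
    simp only [Function.comp_apply]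
    split_ifs <;> ring
  · intro s hs
    obtain ⟨d, -, rfl⟩ := mem_image.mp hs
    simp only [Fintype.mem_piFinset, mem_range, Function.comp_apply]
    intro i
    refine Nat.lt_succ_of_le (le_of_lt (lt_of_lt_of_le (B₃.row_lt_len (d i)) ?_))
    exact Finset.card_le_univ _
  · intro s _ hs
    split_ifs with hm
    · have hz : B₃.minor Q t s = 0 := by
        by_contra hne
        have hinj' : ∀ i j, B₃.col i = B₃.col j → s i = s j → i = j := by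
          intro i j hc he
          by_contra hij
          exact hne (B₃.minor_eq_zero Q t hij hc he)
        have hw := mon_sum_snd_snd hm
        rw [hwI] at hw
        obtain ⟨d, hd, hd'⟩ := B₃.weight s hinj' hw.le
        exact hs (mem_image.mpr ⟨d, hd, hd'.symm⟩)
      rw [hz, mul_zero]
    · rfl

lemma exists_weight {X κ₁ κ₂ κ₃ : Type} [Fintype X] [DecidableEq X] [DecidableEq κ₁]
    [DecidableEq κ₂] [DecidableEq κ₃] (U : Tab X κ₁) (V : Tab X κ₂) (W : Tab X κ₃)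
    (hp : Pos U V W) :
    ∃ f : X → ℕ × ℕ × ℕ, coeff (mon f) (kpoly U V W) ≠ 0 ∧
      ∑ x, (f x).2.2 = ∑ x, W.row x := by
  obtain ⟨m, hm⟩ := MvPolynomial.ne_zero_iff.mp hp
  have hm' := hm
  rw [coeff_kpoly] at hm'
  obtain ⟨p, -, hp'⟩ := Finset.exists_ne_zero_of_sum_ne_zero hm'
  refine ⟨fun x => (U.row (p.1 x), V.row (p.2.1 x), W.row (p.2.2 x)), ?_,
    Equiv.sum_comp p.2.2 W.row⟩
  by_cases he : mon (fun x => (U.row (p.1 x), V.row (p.2.1 x), W.row (p.2.2 x))) = m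
  · rwa [he]
  · exact absurd (if_neg he) hp'

lemma term_eq (fO : O → ℕ × ℕ × ℕ) (fI : I → ℕ × ℕ × ℕ) (h Q N : ℕ)
    (hA₁ : ∀ o, A₁.row o < h) (hB₁ : ∀ i, A₁.len (B₁.col i) = h)
    (hA₂ : ∀ o, A₂.row o < h) (hB₂ : ∀ i, A₂.len (B₂.col i) = h)
    (a₁ : Equiv.Perm O) (b₁ : Equiv.Perm I) (a₂ : Equiv.Perm O) (b₂ : Equiv.Perm I)
    (a₃ : Equiv.Perm O) (b₃ : Equiv.Perm I) (hb₃ : b₃ ∈ B₃.cperm) :
    sg a₁ * sg a₂ * sg a₃ *
        (if mon (fun x => (A₁.row (a₁ x), A₂.row (a₂ x), A₃.row (a₃ x))) = mon fO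
          then 1 else 0) *
      (sg b₁ * sg b₂ * sg b₃ *
        ∑ s ∈ Fintype.piFinset (fun _ : I => range N),
          if mon (fun i => (B₁.row (b₁ i), B₂.row (b₂ i), s i)) = mon fI
            then ∏ i, (Q : ℚ) ^ ((A₃.len (B₃.col i) + B₃.row (b₃ i)) * s i) else 0) =
      sg (Equiv.sumCongr a₁ b₁) * sg (Equiv.sumCongr a₂ b₂) * sg (Equiv.sumCongr a₃ b₃) *
        coeff (mon (Sum.map fO fI)) (∏ x, glueSub h Q N
          ((A₁.stack B₁).row (Equiv.sumCongr a₁ b₁ x), (A₂.stack B₂).row (Equiv.sumCongr a₂ b₂ x),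
            (A₃.stack B₃).row (Equiv.sumCongr a₃ b₃ x))) := by
  rw [coeff_prod_stack A₁ B₁ A₂ B₂ A₃ B₃ fO fI h Q N hA₁ hB₁ hA₂ hB₂]
  have e₂ : ∀ i, (A₃.stack B₃).row (Equiv.sumCongr a₃ b₃ (Sum.inr i)) =
      A₃.len (B₃.col i) + B₃.row (b₃ i) := by
    intro i; simp [Tab.stack, Tab.mem_cperm.mp hb₃ i]
  have e₁ : ∀ o, (A₃.stack B₃).row (Equiv.sumCongr a₃ b₃ (Sum.inl o)) = A₃.row (a₃ o) :=
    fun _ => rfl
  simp only [e₁, e₂, sg_sumCongr]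
  ring

/-- The substituted coefficient of the stacked triple is the product of the two coefficients and a
nonvanishing minor. -/
lemma coeff_glue (fO : O → ℕ × ℕ × ℕ) (fI : I → ℕ × ℕ × ℕ) (h Q : ℕ)
    (hA₁ : ∀ o, A₁.row o < h) (hB₁ : ∀ i, A₁.len (B₁.col i) = h)
    (hA₂ : ∀ o, A₂.row o < h) (hB₂ : ∀ i, A₂.len (B₂.col i) = h)
    (uniq : ∀ Z : Finset (O ⊕ I),
      (∀ q, (Z.filter fun x => (A₁.stack B₁).col x = q).card = A₁.len q) →
      (∀ q, (Z.filter fun x => (A₂.stack B₂).col x = q).card = A₂.len q) →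
      Z = (univ : Finset O).map ⟨Sum.inl, Sum.inl_injective⟩)
    (hwO : ∑ o, (fO o).2.2 = ∑ o, A₃.row o)
    (hwI : ∑ i, (fI i).2.2 = ∑ i, B₃.row i) :
    coeff (mon (Sum.map fO fI)) (aeval (glueSub h Q (Fintype.card I + 1))
        (kpoly (A₁.stack B₁) (A₂.stack B₂) (A₃.stack B₃))) =
      coeff (mon fO) (kpoly A₁ A₂ A₃) *
        (coeff (mon fI) (kpoly B₁ B₂ B₃) * B₃.minor Q A₃.len B₃.row) := by
  set N := Fintype.card I + 1 with hN
  conv_lhs => rw [kpoly]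
  simp only [map_sum, map_mul, map_prod, aeval_X, aeval_C, coeff_sum,
    MvPolynomial.algebraMap_eq]
  simp only [← map_mul, coeff_C_mul]
  rw [← inner_value B₁ B₂ B₃ fI hwI A₃.len Q]
  have hO : (∑ p ∈ A₁.cperm ×ˢ A₂.cperm ×ˢ A₃.cperm, sg p.1 * sg p.2.1 * sg p.2.2 *
      if mon (fun x => (A₁.row (p.1 x), A₂.row (p.2.1 x), A₃.row (p.2.2 x))) = mon fO
        then (1 : ℚ) else 0) = coeff (mon fO) (kpoly A₁ A₂ A₃) := by
    rw [coeff_kpoly]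
    exact Finset.sum_congr rfl fun p _ => by split_ifs <;> simp
  rw [← hO, Finset.sum_mul_sum, ← Finset.sum_product']
  symm
  refine Finset.sum_bij_ne_zero
    (fun p _ _ => ((Equiv.sumCongr p.1.1 p.2.1 : Equiv.Perm (O ⊕ I)),
      (Equiv.sumCongr p.1.2.1 p.2.2.1 : Equiv.Perm (O ⊕ I)),
      (Equiv.sumCongr p.1.2.2 p.2.2.2 : Equiv.Perm (O ⊕ I)))) ?_ ?_ ?_ ?_
  · rintro ⟨⟨a₁, a₂, a₃⟩, b₁, b₂, b₃⟩ hp _
    simp only [mem_product] at hp
    simp only [mem_product, stack_mem_cperm]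
    tauto
  · rintro ⟨⟨a₁, a₂, a₃⟩, b₁, b₂, b₃⟩ _ _ ⟨⟨a₁', a₂', a₃'⟩, b₁', b₂', b₃'⟩ _ _ e
    simp only [Prod.mk.injEq] at e
    obtain ⟨e₁, e₂, e₃⟩ := e
    have k₁ := sumCongr_injective (a₁ := (a₁, b₁)) (a₂ := (a₁', b₁')) e₁
    have k₂ := sumCongr_injective (a₁ := (a₂, b₂)) (a₂ := (a₂', b₂')) e₂
    have k₃ := sumCongr_injective (a₁ := (a₃, b₃)) (a₂ := (a₃', b₃')) e₃
    simp only [Prod.mk.injEq] at k₁ k₂ k₃
    simp [k₁, k₂, k₃]
  · rintro ⟨c₁, c₂, c₃⟩ hp hne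
    simp only [mem_product] at hp
    obtain ⟨h₁, h₂, h₃⟩ := hp
    obtain ⟨a₁, b₁, a₂, b₂, a₃, b₃, rfl, rfl, rfl⟩ := split_of_ne_zero A₁ B₁ A₂ B₂ A₃ B₃ fO fI
      h Q N hA₁ hB₁ hA₂ hB₂ uniq hwO h₁ h₂ h₃ (right_ne_zero_of_mul hne)
    rw [stack_mem_cperm] at h₁ h₂ h₃
    refine ⟨((a₁, a₂, a₃), (b₁, b₂, b₃)), by simp [h₁, h₂, h₃], ?_, rfl⟩
    intro hz
    refine hne ?_
    rw [← hz]
    exact (term_eq A₁ B₁ A₂ B₂ A₃ B₃ fO fI h Q N hA₁ hB₁ hA₂ hB₂ a₁ b₁ a₂ b₂ a₃ b₃ h₃.2).symm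
  · rintro ⟨⟨a₁, a₂, a₃⟩, b₁, b₂, b₃⟩ hp _
    simp only [mem_product] at hp
    exact term_eq A₁ B₁ A₂ B₂ A₃ B₃ fO fI h Q N hA₁ hB₁ hA₂ hB₂ a₁ b₁ a₂ b₂ a₃ b₃ hp.2.2.2

/-- **Gluing.** -/
theorem Pos.glue (h : ℕ)
    (hA₁ : ∀ o, A₁.row o < h) (hB₁ : ∀ i, A₁.len (B₁.col i) = h)
    (hA₂ : ∀ o, A₂.row o < h) (hB₂ : ∀ i, A₂.len (B₂.col i) = h)
    (uniq : ∀ Z : Finset (O ⊕ I),
      (∀ q, (Z.filter fun x => (A₁.stack B₁).col x = q).card = A₁.len q) →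
      (∀ q, (Z.filter fun x => (A₂.stack B₂).col x = q).card = A₂.len q) →
      Z = (univ : Finset O).map ⟨Sum.inl, Sum.inl_injective⟩)
    (hO : Pos A₁ A₂ A₃) (hI : Pos B₁ B₂ B₃) :
    Pos (A₁.stack B₁) (A₂.stack B₂) (A₃.stack B₃) := by
  obtain ⟨fO, hfO, hwO⟩ := exists_weight A₁ A₂ A₃ hO
  obtain ⟨fI, hfI, hwI⟩ := exists_weight B₁ B₂ B₃ hI
  intro h0
  have key := coeff_glue A₁ B₁ A₂ B₂ A₃ B₃ fO fI h (B₃.cperm.card + 1) hA₁ hB₁ hA₂ hB₂ uniq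
    hwO hwI
  rw [h0, map_zero, coeff_zero] at key
  exact mul_ne_zero hfO (mul_ne_zero hfI (B₃.minor_row_ne_zero A₃.len)) key.symm

end

end Vale.Agent.P197
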