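import Vale.Agent.P197.Staircase

/-!
A tableau of every shape whose column lengths dominate `(m, m - 1, ..., 1)`, in which the only
coincidences between permutations of the staircase rows and column permutations are equalities.
-/

namespace Vale.Agent.P197

open Finset

/-- Splitting off the first row of the staircase. -/
def firstRowEquiv (m : ℕ) : Cell (m + 1) ≃ Cell m ⊕ Fin (m + 1) where
  toFun x :=
    if h : (x.1.1 : ℕ) = 0 then Sum.inr x.1.2
    else Sum.inl ⟨(⟨(x.1.1 : ℕ) - 1, by omega⟩, ⟨x.1.2, by have := x.2; omega⟩), by
      have := x.2; simp only; omega⟩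
  invFun y := match y with
    | Sum.inl x => ⟨(⟨(x.1.1 : ℕ) + 1, by omega⟩, ⟨x.1.2, by omega⟩), by
        have := x.2; simp only; omega⟩
    | Sum.inr q => ⟨(0, q), by simp only [Fin.val_zero]; omega⟩
  left_inv x := by
    by_cases h : (x.1.1 : ℕ) = 0
    · simp only [dif_pos h]
      exact Subtype.ext (Prod.ext (Fin.ext (by simp [h])) rfl)
    · simp only [dif_neg h]
      exact Subtype.ext (Prod.ext (Fin.ext (by simp only; omega)) rfl)
  right_inv y := by
    rcases y with x | q
    · simp
    · simp

/-- The first `j` values. -/
def psum (c : ℕ → ℕ) (j : ℕ) : ℕ := ∑ q ∈ range j, c q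

lemma psum_succ (c : ℕ → ℕ) (j : ℕ) : psum c (j + 1) = psum c j + c j :=
  Finset.sum_range_succ _ _

lemma psum_stable (c : ℕ → ℕ) (K : ℕ) (hK : ∀ j, K ≤ j → c j = 0) (j : ℕ) (hj : K ≤ j) :
    psum c j = psum c K := by
  induction j, hj using Nat.le_induction with
  | base => rfl
  | succ j hj ih => rw [psum_succ, ih, hK j hj, Nat.add_zero]

/-- The column lengths left after removing a strip of size `t` from the last columns. -/
def shorten (c : ℕ → ℕ) (p t : ℕ) (j : ℕ) : ℕ :=
  if j < p then c j else if j = p then c p + c (p + 1) - t else c (j + 1)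

lemma psum_shorten (c : ℕ → ℕ) (p t : ℕ) (hp : t ≤ c p) : ∀ j,
    (j ≤ p → psum (shorten c p t) j = psum c j) ∧
    (p < j → psum (shorten c p t) j + t = psum c (j + 1))
  | 0 => ⟨fun _ => rfl, fun h => absurd h (by omega)⟩
  | j + 1 => by
    obtain ⟨ih₁, ih₂⟩ := psum_shorten c p t hp j
    refine ⟨fun h => ?_, fun h => ?_⟩
    · rw [psum_succ, psum_succ, ih₁ (by omega), shorten, if_pos (by omega)]
    · rcases Nat.lt_or_ge p j with hj | hj
      · rw [psum_succ, psum_succ c (j + 1), shorten, if_neg (by omega), if_neg (by omega),
          ← ih₂ hj]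
        omega
      · obtain rfl : j = p := by omega
        rw [psum_succ, psum_succ c (j + 1), psum_succ c j, ih₁ le_rfl, shorten,
          if_neg (by omega), if_pos rfl]
        omega

/-- A nonnegative monotone comparison with equal totals is an equality. -/
lemma eq_of_le_of_sum_eq {X : Type} [Fintype X] (f g : X → ℕ) (h : ∀ x, f x ≤ g x)
    (hs : ∑ x, f x = ∑ x, g x) (x : X) : f x = g x :=
  (Finset.sum_eq_sum_iff_of_le fun x _ => h x).mp hs x (mem_univ x)

/-- The strict tableau: in it a permutation of the staircase rows agrees with a column permutation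
only if they are equal. -/
theorem exists_rigid : ∀ (m : ℕ) (c : ℕ → ℕ) (K : ℕ), (∀ i j, i ≤ j → c j ≤ c i) →
    (∀ j, K ≤ j → c j = 0) → psum c K = tri m → (∀ j, tri m ≤ psum c j + tri (m - j)) →
    ∃ W : Tab (Cell m) ℕ, (∀ j, W.len j = c j) ∧
      ∀ π γ : Equiv.Perm (Cell m), (∀ x, ((π x).1.1 : ℕ) = x.1.1) → γ ∈ W.cperm →
        W.row ∘ π = W.row ∘ γ → π = γ
  | 0, c, K, hanti, hK, hsum, _ => by
    haveI : IsEmpty (Cell 0) := ⟨fun x => x.1.1.elim0⟩
    refine ⟨{ col := fun x => isEmptyElim x, row := fun x => isEmptyElim x,
              inj := fun x => isEmptyElim x, lt := fun x => isEmptyElim x }, fun j => ?_,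
      fun π γ _ _ _ => Subsingleton.elim _ _⟩
    simp only [Tab.len, Finset.univ_eq_empty, Finset.filter_empty, Finset.card_empty]
    rcases Nat.lt_or_ge j K with hj | hj
    · have : c j ≤ psum c K := Finset.single_le_sum (fun q _ => Nat.zero_le (c q)) (mem_range.mpr hj)
      rw [hsum, tri] at this
      omega
    · exact (hK j hj).symm
  | m + 1, c, K, hanti, hK, hsum, hdom => by
    have h0 : m + 1 ≤ c 0 := by
      have := hdom 1
      simp only [psum, Finset.sum_range_one, Nat.add_sub_cancel, tri] at this
      omega
    have hex : ∃ j, c j < m + 1 := ⟨K, by rw [hK K le_rfl]; omega⟩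
    obtain ⟨p, hp⟩ : ∃ p, Nat.find hex = p + 1 := ⟨Nat.find hex - 1, by
      have : Nat.find hex ≠ 0 := fun h => by
        have := Nat.find_spec hex
        rw [h] at this
        omega
      omega⟩
    have hcp : m + 1 ≤ c p := not_lt.mp (Nat.find_min hex (by omega))
    have hcp1 : c (p + 1) < m + 1 := hp ▸ Nat.find_spec hex
    set c' := shorten c p (m + 1) with hc'
    have hle : ∀ j, c (j + 1) ≤ c j := fun j => hanti j (j + 1) (by omega)
    have hbt : ∀ j, c' j ≤ c j ∧ c (j + 1) ≤ c' j := by
      intro j
      simp only [hc', shorten]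
      split_ifs with h₁ h₂
      · exact ⟨le_rfl, hle j⟩
      · subst h₂; omega
      · exact ⟨hle j, le_rfl⟩
    have hanti' : ∀ i j, i ≤ j → c' j ≤ c' i := by
      intro i j hij
      induction j, hij using Nat.le_induction with
      | base => rfl
      | succ j _ ih => exact le_trans (le_trans (hbt (j + 1)).1 (hbt j).2) ih
    have hK' : ∀ j, K ≤ j → c' j = 0 := fun j hj => by
      have := (hbt j).1; rw [hK j hj] at this; omega
    have hpK : p < K := by
      by_contra h
      rw [hK p (not_lt.mp h)] at hcp
      omega
    have hsum' : psum c' K = tri m := by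
      have := (psum_shorten c p (m + 1) hcp K).2 hpK
      rw [psum_succ, hK K le_rfl, hsum, tri] at this
      simp only [hc']
      omega
    have hdom' : ∀ j, tri m ≤ psum c' j + tri (m - j) := by
      intro j
      rcases Nat.lt_or_ge p j with hj | hj
      · have e := (psum_shorten c p (m + 1) hcp j).2 hj
        have := hdom (j + 1)
        simp only [Nat.add_sub_add_right, tri] at this
        simp only [hc']
        omega
      · have e := (psum_shorten c p (m + 1) hcp j).1 hj
        simp only [hc', e]
        have := hdom j
        rw [tri] at this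
        rcases Nat.lt_or_ge m j with hm | hm
        · rw [show m + 1 - j = 0 by omega, tri] at this
          omega
        · rw [show m + 1 - j = (m - j) + 1 by omega, tri] at this
          omega
    obtain ⟨W', hlen', hrig'⟩ := exists_rigid m c' K hanti' hK' hsum' hdom'
    set L := List.ofFn fun j : Fin K => c j - c' j with hL
    have hn : m + 1 = L.sum := by
      rw [hL, List.sum_ofFn, Fin.sum_univ_eq_sum_range fun j => c j - c' j]
      have e : ∑ j ∈ range K, (c j - c' j) + psum c' K = psum c K := by
        rw [psum, psum, ← Finset.sum_add_distrib]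
        exact Finset.sum_congr rfl fun j _ => Nat.sub_add_cancel (hbt j).1
      rw [hsum, hsum', tri] at e
      omega
    set B := (segAt L hn).recol (fun q => (q : ℕ)) Fin.val_injective
    have hBlen : ∀ j, B.len j = c j - c' j := by
      intro j
      rcases Nat.lt_or_ge j K with hj | hj
      · refine (Tab.len_recol (segAt L hn) (fun q => (q : ℕ)) Fin.val_injective
          ⟨j, by simp [hL, hj]⟩).trans ?_
        rw [segAt, Tab.len_map, len_segTab]
        simp [hL]
      · have h0 : c j - c' j = 0 := by rw [hK j hj]; omega
        rw [h0, Tab.len, Finset.card_eq_zero, Finset.filter_eq_empty_iff]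
        intro x _ hx
        have h' : (((segAt L hn).col x : Fin L.length) : ℕ) = j := hx
        have := ((segAt L hn).col x).2
        have hl : L.length = K := List.length_ofFn
        omega
    have hslen : ∀ j, (W'.stack B).len j = c j := fun j => by
      rw [Tab.len_stack, hlen', hBlen]
      have := (hbt j).1
      omega
    -- the rows of the new cells lie in disjoint intervals
    have hint : ∀ t : Fin (m + 1),
        c' (B.col t) ≤ (W'.stack B).row (Sum.inr t) ∧
          (W'.stack B).row (Sum.inr t) < c (B.col t) := by
      intro t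
      have h := (W'.stack B).row_lt_len (Sum.inr t)
      rw [hslen] at h
      refine ⟨?_, h⟩
      show c' (B.col t) ≤ W'.len (B.col t) + B.row t
      rw [hlen']
      omega
    refine ⟨(W'.stack B).map (firstRowEquiv m), fun j => by rw [Tab.len_map, hslen], ?_⟩
    intro π γ hπ hγ he
    set φ := firstRowEquiv m
    have hzero : ∀ x : Cell (m + 1), (φ x).isLeft = false ↔ (x.1.1 : ℕ) = 0 := by
      intro x
      show (Equiv.toFun (firstRowEquiv m) x).isLeft = false ↔ _
      simp only [firstRowEquiv]
      split_ifs with h' <;> simp [h']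
    set π' := φ.permCongr π with hπ'
    set γ' := φ.permCongr γ with hγ'
    have hγ'c : γ' ∈ (W'.stack B).cperm := by
      rw [Tab.mem_cperm]
      intro y
      have := Tab.mem_cperm.mp hγ (φ.symm y)
      simpa [hγ', Tab.map] using this
    have he' : ∀ y, (W'.stack B).row (π' y) = (W'.stack B).row (γ' y) := by
      intro y
      have := congrFun he (φ.symm y)
      simpa [hπ', hγ', Tab.map] using this
    have hside : ∀ y, (π' y).isLeft = y.isLeft := by
      intro y
      have h₁ := hzero (π (φ.symm y))
      have h₂ := hzero (φ.symm y)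
      rw [hπ (φ.symm y)] at h₁
      rw [Equiv.apply_symm_apply] at h₂
      have h₃ : (φ (π (φ.symm y))).isLeft = false ↔ y.isLeft = false := h₁.trans h₂.symm
      show (φ (π (φ.symm y))).isLeft = y.isLeft
      revert h₃
      cases (φ (π (φ.symm y))).isLeft <;> cases y.isLeft <;> simp
    obtain ⟨πA, πB, hπAB⟩ := preserves_or π' fun o => by rw [hside]; rfl
    -- the column permutation preserves the new cells
    have hk : ∀ t : Fin (m + 1), B.col t ≤ B.col (πB t) := by
      intro t
      by_contra hlt
      have h₁ := (hint (πB t)).1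
      have h₂ := (W'.stack B).row_lt_len (γ' (Sum.inr t))
      have h₃ := he' (Sum.inr t)
      rw [hπAB, Equiv.sumCongr_apply, Sum.map_inr] at h₃
      rw [← h₃, Tab.mem_cperm.mp hγ'c, hslen] at h₂
      have h₄ : c (B.col t) ≤ c' (B.col (πB t)) :=
        le_trans (hanti _ _ (not_le.mp hlt)) (hbt _).2
      have h₅ : c (((W'.stack B).col (Sum.inr t))) = c (B.col t) := rfl
      omega
    have hkeq := eq_of_le_of_sum_eq _ _ hk (Equiv.sum_comp πB B.col).symm
    have hinr : ∀ t : Fin (m + 1), γ' (Sum.inr t) = Sum.inr (πB t) := by
      intro t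
      have h₃ := he' (Sum.inr t)
      rw [hπAB, Equiv.sumCongr_apply, Sum.map_inr] at h₃
      refine ((W'.stack B).inj _ _ ?_ h₃.symm)
      rw [Tab.mem_cperm.mp hγ'c]
      exact hkeq t
    have hinl : ∀ o, (γ' (Sum.inl o)).isLeft = true := by
      intro o
      cases hh : γ' (Sum.inl o) with
      | inl o' => rfl
      | inr t =>
        have h := hinr (πB.symm t)
        rw [Equiv.apply_symm_apply, ← hh] at h
        exact absurd (γ'.injective h) (by simp)
    obtain ⟨γA, γB, hγAB⟩ := preserves_or γ' hinl
    have hB : γB = πB := Equiv.ext fun t => by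
      have := hinr t
      rw [hγAB, Equiv.sumCongr_apply, Sum.map_inr] at this
      exact Sum.inr_injective this
    have hA : πA = γA := by
      refine hrig' πA γA (fun x => ?_) ?_ ?_
      · have h := hπ (φ.symm (Sum.inl x))
        have e : π (φ.symm (Sum.inl x)) = φ.symm (Sum.inl (πA x)) := by
          apply φ.injective
          rw [Equiv.apply_symm_apply]
          have := congrArg (fun g : Equiv.Perm _ => g (Sum.inl x)) hπAB
          simpa [hπ'] using this
        rw [e] at h
        simpa [φ, firstRowEquiv] using h
      · rw [Tab.mem_cperm]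
        intro x
        have := Tab.mem_cperm.mp hγ'c (Sum.inl x)
        rw [hγAB] at this
        simpa [Tab.stack] using this
      · funext x
        have := he' (Sum.inl x)
        rw [hπAB, hγAB] at this
        simpa [Tab.stack] using this
    have : π' = γ' := by rw [hπAB, hγAB, hA, hB]
    exact φ.permCongr.injective this

end Vale.Agent.P197
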