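import Vale.Agent.P197.Seg

/-!
The base case: the path of `2 r + 1` cells with its two matchings is positive against every
tableau with columns of length at most four.
-/

namespace Vale.Agent.P197

open Finset MvPolynomial

abbrev M2 := Matrix (Fin 2) (Fin 2) ℤ

/-- Extension of a tuple by zero. -/
def extN {n : ℕ} (f : Fin n → ℕ) (j : ℕ) : ℕ := if h : j < n then f ⟨j, h⟩ else 0

/-- A permutation of an initial segment followed by a sequence. -/
def app (h : ℕ) (p : Equiv.Perm (Fin h)) (g : ℕ → ℕ) (j : ℕ) : ℕ :=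
  if hj : j < h then (p ⟨j, hj⟩ : ℕ) else g (j - h)

/-- Alternating sums over consecutive segments. -/
def altL {β : Type} [AddCommGroup β] : List ℕ → ((ℕ → ℕ) → β) → β
  | [], F => F fun _ => 0
  | h :: t, F => ∑ p : Equiv.Perm (Fin h), sgz p • altL t fun g => F (app h p g)

lemma sgz_permCongr {X Y : Type} [Fintype X] [DecidableEq X] [Fintype Y] [DecidableEq Y]
    (e : X ≃ Y) (p : Equiv.Perm X) : sgz (e.permCongr p) = sgz p := by
  simp [sgz]

lemma sgz_sumCongr {O I : Type} [Fintype O] [DecidableEq O] [Fintype I] [DecidableEq I]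
    (a : Equiv.Perm O) (b : Equiv.Perm I) : sgz (Equiv.sumCongr a b) = sgz a * sgz b := by
  simp [sgz, Equiv.Perm.sign_sumCongr]

lemma altL_eq {β : Type} [AddCommGroup β] : ∀ (L : List ℕ) (F : (ℕ → ℕ) → β),
    altL L F = ∑ c ∈ (segTab L).cperm, sgz c • F (extN fun j => (segTab L).row (c j))
  | [], F => by
    have h1 : (segTab []).cperm = {1} := by decide
    rw [h1, Finset.sum_singleton]
    simp only [altL, sgz, map_one, Units.val_one, one_smul]
    congr 1
  | h :: t, F => by
    have hcol : (colTab h).cperm = univ := by ext c; simp [colTab]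
    rw [segTab]
    refine Eq.trans ?_ (Tab.sum_map_cperm _ _ _).symm
    rw [Tab.recol_cperm, Tab.sum_cperm, Finset.sum_image sumCongr_injective.injOn,
      Finset.sum_product, hcol]
    show ∑ p : Equiv.Perm (Fin h), sgz p • altL t (fun g => F (app h p g)) = _
    refine Finset.sum_congr rfl fun p _ => ?_
    rw [altL_eq t, Finset.smul_sum]
    refine Finset.sum_congr rfl fun c _ => ?_
    rw [sgz_permCongr, sgz_sumCongr, mul_smul]
    congr 2
    refine congrArg F (funext fun j => ?_)
    show app h p (extN fun i => (segTab t).row (c i)) j = extN (n := h + t.sum) (fun i =>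
      Sum.elim (colTab h).row (segTab t).row (finSumFinEquiv.symm
        (finSumFinEquiv (Equiv.sumCongr p c (finSumFinEquiv.symm i))))) j
    simp only [Equiv.symm_apply_apply]
    by_cases hj : j < h
    · have hlt : j < h + t.sum := by omega
      rw [app, dif_pos hj, extN, dif_pos hlt,
        show (⟨j, hlt⟩ : Fin (h + t.sum)) = Fin.castAdd t.sum ⟨j, hj⟩ from rfl,
        finSumFinEquiv_symm_apply_castAdd]
      rfl
    · rw [app, dif_neg hj, extN, extN]
      by_cases hjn : j < h + t.sum
      · have hjt : j - h < t.sum := by omega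
        rw [dif_pos hjt, dif_pos hjn,
          show (⟨j, hjn⟩ : Fin (h + t.sum)) = Fin.natAdd h ⟨j - h, hjt⟩ from by
            ext; simp; omega, finSumFinEquiv_symm_apply_natAdd]
        rfl
      · rw [dif_neg (show ¬ j - h < t.sum by omega), dif_neg hjn]

lemma altL_add {β γ : Type} [AddCommGroup β] [AddCommGroup γ] (φ : β →+ γ) :
    ∀ (L : List ℕ) (F : (ℕ → ℕ) → β), φ (altL L F) = altL L fun g => φ (F g)
  | [], _ => rfl
  | h :: t, F => by
    simp only [altL, map_sum, map_zsmul, altL_add φ t]

lemma altL_mul_left {β : Type} [Ring β] (L : List ℕ) (a : β) (F : (ℕ → ℕ) → β) :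
    altL L (fun g => a * F g) = a * altL L F :=
  (altL_add (AddMonoidHom.mulLeft a) L F).symm

lemma altL_add_fun {β : Type} [AddCommGroup β] : ∀ (L : List ℕ) (F G : (ℕ → ℕ) → β),
    altL L (fun g => F g + G g) = altL L F + altL L G
  | [], _, _ => rfl
  | h :: t, F, G => by simp only [altL, altL_add_fun t, smul_add, Finset.sum_add_distrib]

lemma altL_zsmul {β : Type} [AddCommGroup β] (L : List ℕ) (a : ℤ) (F : (ℕ → ℕ) → β) :
    altL L (fun g => a • F g) = a • altL L F :=
  (altL_add (DistribSMul.toAddMonoidHom β a) L F).symm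

/-- Product of an initial segment of a sequence. -/
def prodN {β : Type} [Monoid β] : ℕ → (ℕ → β) → β
  | 0, _ => 1
  | n + 1, f => f 0 * prodN n fun j => f (j + 1)

lemma prodN_congr {β : Type} [Monoid β] : ∀ (n : ℕ) (f g : ℕ → β),
    (∀ j < n, f j = g j) → prodN n f = prodN n g
  | 0, _, _, _ => rfl
  | n + 1, f, g, h => by
    simp only [prodN]
    rw [h 0 (by omega), prodN_congr n _ _ fun j hj => h (j + 1) (by omega)]

lemma prodN_add {β : Type} [Monoid β] : ∀ (h t : ℕ) (f : ℕ → β),
    prodN (h + t) f = prodN h f * prodN t fun j => f (h + j)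
  | 0, t, f => by simp [prodN]
  | h + 1, t, f => by
    rw [Nat.succ_add]
    simp only [prodN, prodN_add h t, mul_assoc]
    congr 2
    exact prodN_congr t _ _ fun j _ => congrArg f (by omega)

/-! ### The transfer matrices -/

def mJ : M2 := !![0, 1; -1, 0]

/-- The matrix of a colour: three symmetric ones and the antisymmetric one. -/
def mA : M2 := !![1, -1; -1, 0]
def mB : M2 := !![1, 0; 0, -1]
def mE : M2 := !![0, 0; 0, -1]

def scheme₁ : ℕ → M2
  | 0 => mA
  | 1 => mB
  | 2 => mE
  | _ => mJ

def scheme₂ : ℕ → M2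
  | 0 => mA
  | 1 => mJ
  | 2 => mB
  | _ => mE

/-- The transfer matrix of a colour at a position of given parity. -/
def tmat (M : ℕ → M2) (o : Bool) (k : ℕ) : M2 := (if o then M k else (M k).transpose) * mJ

def oddB (o : Bool) (j : ℕ) : Bool := xor o (decide (j % 2 = 1))

/-- The alternating sum over one segment. -/
def alt (M : ℕ → M2) (o : Bool) (h : ℕ) : M2 :=
  ∑ p : Equiv.Perm (Fin h), sgz p • prodN h fun j => tmat M (oddB o j) (app h p (fun _ => 0) j)

def prodAlt (M : ℕ → M2) : Bool → List ℕ → M2
  | _, [] => 1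
  | o, h :: t => alt M o h * prodAlt M (oddB o h) t

lemma oddB_add (o : Bool) (h j : ℕ) : oddB o (h + j) = oddB (oddB o h) j := by
  unfold oddB
  rcases Nat.mod_two_eq_zero_or_one h with a | a <;>
    rcases Nat.mod_two_eq_zero_or_one j with b | b <;>
    simp [Nat.add_mod, a, b]

lemma altL_prod (M : ℕ → M2) : ∀ (L : List ℕ) (o : Bool),
    altL L (fun g => prodN L.sum fun j => tmat M (oddB o j) (g j)) = prodAlt M o L
  | [], _ => rfl
  | h :: t, o => by
    simp only [altL, prodAlt, alt, Finset.sum_mul]
    refine Finset.sum_congr rfl fun p _ => ?_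
    rw [← altL_prod M t (oddB o h), smul_mul_assoc, ← altL_mul_left]
    congr 2
    funext g
    rw [List.sum_cons, prodN_add]
    congr 1
    · exact prodN_congr h _ _ fun j hj => by simp [app, hj]
    · refine prodN_congr _ _ _ fun j _ => ?_
      rw [oddB_add]
      simp [app]

/-! ### Contraction along the path -/

/-- Read a matrix at natural indices. -/
def ent (A : M2) (a b : ℕ) : ℤ := A (Fin.ofNat 2 a) (Fin.ofNat 2 b)

def lU : ℕ → List ℕ
  | 0 => [1]
  | r + 1 => 2 :: lU r

def twos : ℕ → List ℕ
  | 0 => []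
  | r + 1 => 2 :: twos r

def cons0 (x : ℕ) (b : ℕ → ℕ) : ℕ → ℕ
  | 0 => x
  | j + 1 => b j

def pathMat : ℕ → (ℕ → M2) → M2
  | 0, M => (M 0).transpose
  | r + 1, M => (M 0).transpose * mJ * M 1 * mJ * pathMat r fun j => M (j + 2)

lemma sum_perm_two {β : Type} [AddCommMonoid β] (F : Equiv.Perm (Fin 2) → β) :
    ∑ p, F p = F 1 + F (Equiv.swap 0 1) := by
  rw [show (univ : Finset (Equiv.Perm (Fin 2))) = {1, Equiv.swap 0 1} from by decide]
  exact Finset.sum_pair (by decide)

lemma sum_perm_one {β : Type} [AddCommMonoid β] (F : Equiv.Perm (Fin 1) → β) :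
    ∑ p, F p = F 1 := by
  rw [show (univ : Finset (Equiv.Perm (Fin 1))) = {1} from by decide]
  exact Finset.sum_singleton _ _

lemma contract : ∀ (r : ℕ) (M : ℕ → M2) (x : Fin 2),
    altL (lU r) (fun a => altL (twos r) fun b =>
      ∏ j ∈ range (2 * r + 1), ent (M j) (a j) (cons0 x b j)) = pathMat r M x 0
  | 0, M, x => by
    simp only [lU, twos, altL, sum_perm_one]
    simp [app, cons0, ent, pathMat, sgz, Matrix.transpose_apply, Fin.cast_val_eq_self]
  | r + 1, M, x => by
    simp only [lU, twos, altL]
    have ih := contract r fun j => M (j + 2)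
    have key : ∀ (p q : Equiv.Perm (Fin 2)),
        altL (lU r) (fun a => altL (twos r) fun b => ∏ j ∈ range (2 * (r + 1) + 1),
          ent (M j) (app 2 p a j) (cons0 x (app 2 q b) j)) =
        M 0 (p 0) x * M 1 (p 1) (q 0) * pathMat r (fun j => M (j + 2)) (q 1) 0 := by
      intro p q
      rw [← ih (q 1), ← altL_mul_left]
      congr 1
      funext a
      rw [← altL_mul_left]
      congr 1
      funext b
      rw [show 2 * (r + 1) + 1 = (2 * r + 1) + 1 + 1 from by ring, Finset.prod_range_succ',
        Finset.prod_range_succ']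
      have e : ∀ j, ent (M (j + 1 + 1)) (app 2 p a (j + 1 + 1)) (cons0 x (app 2 q b) (j + 1 + 1))
          = ent (M (j + 2)) (a j) (cons0 (q 1) b j) := by
        intro j
        cases j with
        | zero => simp [app, cons0]
        | succ k => simp [app, cons0]
      simp only [e]
      simp [app, cons0, ent, Fin.cast_val_eq_self]
      ring
    have hs : sgz (Equiv.swap (0 : Fin 2) 1) = -1 := by decide
    have h1 : sgz (1 : Equiv.Perm (Fin 2)) = 1 := by decide
    simp only [sum_perm_two, altL_add_fun, altL_zsmul, key, hs, h1, one_smul]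
    simp only [pathMat, Matrix.mul_apply, Fin.sum_univ_two, Matrix.transpose_apply]
    simp [mJ, Equiv.swap_apply_left, Equiv.swap_apply_right]
    ring

end Vale.Agent.P197
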