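import Vale.Agent.P197.Path

/-!
Positivity of the path against every tableau with column lengths at most four.
-/

namespace Vale.Agent.P197

open Finset MvPolynomial

lemma pathMat_mul : ∀ (r : ℕ) (M : ℕ → M2), pathMat r M * mJ =
    prodN (2 * r + 1) fun j => (if oddB false j then M j else (M j).transpose) * mJ
  | 0, M => by simp [pathMat, prodN, oddB]
  | r + 1, M => by
    rw [show 2 * (r + 1) + 1 = 2 + (2 * r + 1) from by ring, prodN_add]
    have ih := pathMat_mul r fun j => M (j + 2)
    have e : prodN (2 * r + 1) (fun j => (if oddB false (2 + j) then M (2 + j)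
        else (M (2 + j)).transpose) * mJ) = prodN (2 * r + 1) fun j =>
        (if oddB false j then M (j + 2) else (M (j + 2)).transpose) * mJ := by
      refine prodN_congr _ _ _ fun j _ => ?_
      rw [oddB_add, Nat.add_comm 2 j]
      rfl
    rw [e, ← ih]
    simp [pathMat, prodN, oddB, Matrix.mul_assoc]

lemma pathMat_entry (r : ℕ) (S : ℕ → M2) (k : ℕ → ℕ) :
    pathMat r (fun j => S (k j)) 0 0 =
      prodN (2 * r + 1) (fun j => tmat S (oddB false j) (k j)) 0 1 := by
  show pathMat r (fun j => S (k j)) 0 0 = prodN (2 * r + 1)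
    (fun j => (if oddB false j then S (k j) else (S (k j)).transpose) * mJ) 0 1
  rw [← pathMat_mul r fun j => S (k j)]
  simp [Matrix.mul_apply, Fin.sum_univ_two, mJ]

/-! ### The value of the transfer products -/

def base (a c : Bool) : M2 :=
  (if a then !![1, 1; 0, -1] else 1) * (if c then !![1, 2; -2, -1] else 1)

def baseCoeff (_a c a' c' : Bool) : ℤ :=
  (if c && a' then -1 else 1) * (if c && c' then -3 else 1)

lemma base_mul : ∀ a c a' c' : Bool,
    base a c * base a' c' = baseCoeff a c a' c' • base (xor a a') (xor c c') := by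
  decide +kernel

lemma baseCoeff_ne_zero : ∀ a c a' c' : Bool, baseCoeff a c a' c' ≠ 0 := by decide +kernel

lemma base_entry : ∀ a c : Bool, (a = true ∨ c = true) → base a c 0 1 ≠ 0 := by decide +kernel

/-- The coefficient in the value of one segment. -/
def segCoeff (s : ℕ) (o : Bool) : ℕ → ℤ
  | 0 => 1
  | 1 => 1
  | 2 => if s = 1 then 1 else (if o then 2 else -2)
  | 3 => if s = 1 then 3 else (if o then 3 else -3)
  | _ => if o then 12 else -12

lemma alt_scheme₁ : ∀ o : Bool, ∀ h : Fin 5,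
    alt scheme₁ o h = segCoeff 1 o h • base (decide (h.1 = 1)) (decide (h.1 = 2)) := by
  decide +kernel

lemma alt_scheme₂ : ∀ o : Bool, ∀ h : Fin 5,
    alt scheme₂ o h =
      segCoeff 2 o h • base (decide (h.1 = 1) || decide (h.1 = 2)) (decide (h.1 = 3)) := by
  decide +kernel

lemma segCoeff_ne_zero (s : ℕ) (o : Bool) : ∀ h, segCoeff s o h ≠ 0
  | 0 => by simp [segCoeff]
  | 1 => by simp [segCoeff]
  | 2 => by simp only [segCoeff]; split_ifs <;> decide
  | 3 => by simp only [segCoeff]; split_ifs <;> decide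
  | _ + 4 => by simp only [segCoeff]; split_ifs <;> decide

def parA (s : ℕ) : List ℕ → Bool
  | [] => false
  | h :: t => xor (if s = 1 then decide (h = 1) else decide (h = 1) || decide (h = 2)) (parA s t)

def parC (s : ℕ) : List ℕ → Bool
  | [] => false
  | h :: t => xor (if s = 1 then decide (h = 2) else decide (h = 3)) (parC s t)

def schemeOf (s : ℕ) : ℕ → M2 := if s = 1 then scheme₁ else scheme₂

lemma prodAlt_form (s : ℕ) : ∀ (L : List ℕ) (o : Bool), (∀ h ∈ L, h ≤ 4) →
    ∃ z : ℤ, z ≠ 0 ∧ prodAlt (schemeOf s) o L = z • base (parA s L) (parC s L)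
  | [], _, _ => ⟨1, one_ne_zero, by simp [prodAlt, parA, parC, base]⟩
  | h :: t, o, hL => by
    obtain ⟨z, hz, e⟩ := prodAlt_form s t (oddB o h) fun x hx => hL x (List.mem_cons_of_mem _ hx)
    have h5 : h < 5 := Nat.lt_succ_of_le (hL h (List.mem_cons_self))
    simp only [prodAlt, parA, parC, e]
    by_cases hs : s = 1
    · subst hs
      refine ⟨segCoeff 1 o h * (z * baseCoeff (decide (h = 1)) (decide (h = 2)) (parA 1 t)
        (parC 1 t)), mul_ne_zero (segCoeff_ne_zero _ _ _)
          (mul_ne_zero hz (baseCoeff_ne_zero _ _ _ _)), ?_⟩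
      simp only [schemeOf, if_true, alt_scheme₁ o ⟨h, h5⟩, smul_mul_assoc, mul_smul_comm,
        base_mul, smul_smul]
      congr 1
      ring
    · refine ⟨segCoeff 2 o h * (z * baseCoeff (decide (h = 1) || decide (h = 2)) (decide (h = 3))
        (parA s t) (parC s t)), mul_ne_zero (segCoeff_ne_zero _ _ _)
          (mul_ne_zero hz (baseCoeff_ne_zero _ _ _ _)), ?_⟩
      simp only [schemeOf, if_neg hs, alt_scheme₂ o ⟨h, h5⟩, smul_mul_assoc, mul_smul_comm,
        base_mul, smul_smul]
      congr 1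
      ring

lemma par_sum : ∀ L : List ℕ, (∀ h ∈ L, h ≤ 4) →
    decide (L.sum % 2 = 1) = xor (parA 1 L) (parC 2 L)
  | [], _ => by simp [parA, parC]
  | h :: t, hL => by
    have ih := par_sum t fun x hx => hL x (List.mem_cons_of_mem _ hx)
    have h5 : h ≤ 4 := hL h List.mem_cons_self
    rw [List.sum_cons]
    simp only [parA, parC, if_true, show ¬ (2 = 1) by decide, if_false]
    have e : decide ((h + t.sum) % 2 = 1) =
        xor (decide (h % 2 = 1)) (decide (t.sum % 2 = 1)) := by
      rcases Nat.mod_two_eq_zero_or_one h with a | a <;>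
        rcases Nat.mod_two_eq_zero_or_one t.sum with b | b <;>
        simp [Nat.add_mod, a, b]
    rw [e, ih]
    generalize parA 1 t = x
    generalize parC 2 t = y
    interval_cases h <;> cases x <;> cases y <;> rfl

lemma exists_scheme (L : List ℕ) (hL : ∀ h ∈ L, h ≤ 4) (hodd : L.sum % 2 = 1) :
    ∃ s, prodAlt (schemeOf s) false L 0 1 ≠ 0 := by
  have hp := par_sum L hL
  have key : ∀ s, (parA s L = true ∨ parC s L = true) →
      prodAlt (schemeOf s) false L 0 1 ≠ 0 := by
    intro s hs
    obtain ⟨z, hz, e⟩ := prodAlt_form s L false hL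
    rw [e, Matrix.smul_apply, smul_eq_mul]
    exact mul_ne_zero hz (base_entry _ _ hs)
  simp only [hodd, decide_true] at hp
  by_cases h1 : parA 1 L = true
  · exact ⟨1, key 1 (Or.inl h1)⟩
  · refine ⟨2, key 2 (Or.inr ?_)⟩
    simpa [h1] using hp.symm

/-! ### Tableaux on `Fin n` -/

def lV (r : ℕ) : List ℕ := 1 :: twos r

lemma lU_sum : ∀ r, 2 * r + 1 = (lU r).sum
  | 0 => rfl
  | r + 1 => by rw [lU, List.sum_cons, ← lU_sum r]; omega

lemma twos_sum : ∀ r, 2 * r = (twos r).sum
  | 0 => rfl
  | r + 1 => by rw [twos, List.sum_cons, ← twos_sum r]; omega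

lemma lV_sum (r : ℕ) : 2 * r + 1 = (lV r).sum := by
  rw [lV, List.sum_cons, ← twos_sum r]; omega

lemma segCol_lU : ∀ r j, j < 2 * r + 1 → segCol (lU r) j = j / 2
  | 0, j, hj => by
    obtain rfl : j = 0 := by omega
    rfl
  | r + 1, j, hj => by
    simp only [lU, segCol]
    split_ifs with h
    · omega
    · rw [segCol_lU r (j - 2) (by omega)]; omega

lemma segCol_twos : ∀ r j, j < 2 * r → segCol (twos r) j = j / 2
  | 0, j, hj => by omega
  | r + 1, j, hj => by
    simp only [twos, segCol]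
    split_ifs with h
    · omega
    · rw [segCol_twos r (j - 2) (by omega)]; omega

lemma segCol_lV (r j : ℕ) (hj : j < 2 * r + 1) : segCol (lV r) j = (j + 1) / 2 := by
  simp only [lV, segCol]
  split_ifs with h
  · omega
  · rw [segCol_twos r (j - 1) (by omega)]; omega

/-- A segment tableau on `Fin n`. -/
def segAt (L : List ℕ) {n : ℕ} (h : n = L.sum) : Tab (Fin n) (Fin L.length) :=
  (segTab L).map (finCongr h)

lemma altL_segAt {β : Type} [AddCommGroup β] (L : List ℕ) {n : ℕ} (h : n = L.sum)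
    (F : (ℕ → ℕ) → β) :
    altL L F = ∑ c ∈ (segAt L h).cperm, sgz c • F (extN fun j => (segAt L h).row (c j)) := by
  subst h
  rw [altL_eq]
  rfl

lemma segAt_col (L : List ℕ) {n : ℕ} (h : n = L.sum) (j : Fin n) :
    ((segAt L h).col j : ℕ) = segCol L j := by
  subst h
  exact segTab_col L j

lemma value_eq (r : ℕ) (L : List ℕ) (hn : 2 * r + 1 = L.sum) (S : ℕ → M2) :
    aeval (fun v : ℕ × ℕ × ℕ => ((ent (S v.2.2) v.1 v.2.1 : ℤ) : ℚ))
        (kpoly (segAt (lU r) (lU_sum r)) (segAt (lV r) (lV_sum r)) (segAt L hn)) =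
      ((prodAlt S false L 0 1 : ℤ) : ℚ) := by
  have h₁ : prodAlt S false L 0 1 =
      altL L fun g => pathMat r (fun j => S (g j)) 0 0 := by
    simp only [pathMat_entry]
    rw [← altL_prod, ← hn]
    exact altL_add (AddMonoidHom.mk' (fun A : M2 => A 0 1) (fun _ _ => rfl)) L _
  have h₂ : ∀ g : ℕ → ℕ, pathMat r (fun j => S (g j)) 0 0 = altL (lU r) fun a =>
      altL (lV r) fun b => ∏ j ∈ range (2 * r + 1), ent (S (g j)) (a j) (b j) := by
    intro g
    rw [← contract r (fun j => S (g j)) 0]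
    congr 1
    funext a
    simp only [lV, altL, sum_perm_one]
    rw [show sgz (1 : Equiv.Perm (Fin 1)) = 1 from by decide, one_smul]
    congr 1
    funext b
    refine Finset.prod_congr rfl fun j _ => ?_
    cases j with
    | zero => simp [app, cons0]
    | succ k => simp [app, cons0]
  rw [h₁]
  simp only [h₂]
  rw [altL_segAt L hn]
  simp only [altL_segAt (lU r) (lU_sum r), altL_segAt (lV r) (lV_sum r), kpoly, map_sum, map_mul,
    map_prod, aeval_X, aeval_C, Finset.sum_product, Finset.smul_sum, smul_eq_mul, Int.cast_sum,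
    Int.cast_mul, Int.cast_prod, Finset.mul_sum]
  conv_rhs => rw [Finset.sum_comm]
  refine Finset.sum_congr rfl fun c₁ _ => ?_
  conv_rhs => rw [Finset.sum_comm]
  refine Finset.sum_congr rfl fun c₂ _ => Finset.sum_congr rfl fun c₃ _ => ?_
  rw [← Fin.prod_univ_eq_prod_range]
  have he : ∀ (f : Fin (2 * r + 1) → ℕ) (x : Fin (2 * r + 1)), extN f x = f x :=
    fun f x => by rw [extN, dif_pos x.2]
  simp only [he, sg_eq_sgz, eq_ratCast, Rat.cast_intCast]
  try simp
  try ring

/-- The base case. -/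
theorem pos_path {ι κ : Type} [DecidableEq ι] [DecidableEq κ] (r : ℕ)
    (U : Tab (Fin (2 * r + 1)) ι) (V : Tab (Fin (2 * r + 1)) κ)
    (hU : ∀ x y, U.col x = U.col y ↔ (x : ℕ) / 2 = (y : ℕ) / 2)
    (hV : ∀ x y, V.col x = V.col y ↔ ((x : ℕ) + 1) / 2 = ((y : ℕ) + 1) / 2)
    (L : List ℕ) (hL : ∀ h ∈ L, h ≤ 4) (hn : 2 * r + 1 = L.sum) :
    Pos U V (segAt L hn) := by
  obtain ⟨s, hs⟩ := exists_scheme L hL (by omega)
  have hp : Pos (segAt (lU r) (lU_sum r)) (segAt (lV r) (lV_sum r)) (segAt L hn) := by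
    intro h0
    have e := value_eq r L hn (schemeOf s)
    rw [h0, map_zero] at e
    exact hs (by exact_mod_cast e.symm)
  refine hp.congr (fun x y => ?_) (fun x y => ?_) (fun x y => Iff.rfl)
  · rw [hU, Fin.ext_iff, segAt_col, segAt_col, segCol_lU r x x.2, segCol_lU r y y.2]
  · rw [hV, Fin.ext_iff, segAt_col, segAt_col, segCol_lV r x x.2, segCol_lV r y y.2]

end Vale.Agent.P197
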