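import Vale.Agent.P197.Sum

/-!
Changing the names of the columns, invariance of positivity under column-preserving changes of
the rows, and tableaux whose columns are consecutive segments of `Fin n`.
-/

namespace Vale.Agent.P197

open Finset MvPolynomial

variable {X Y ι κ : Type} [Fintype X] [DecidableEq X] [Fintype Y] [DecidableEq Y]
  [DecidableEq ι] [DecidableEq κ]

/-- The sign of a permutation as an integer. -/
def sgz (c : Equiv.Perm X) : ℤ := (Equiv.Perm.sign c : ℤ)

lemma sg_eq_sgz (c : Equiv.Perm X) : sg c = (sgz c : ℚ) := rfl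

namespace Tab

/-- Renaming the columns. -/
def recol (T : Tab X ι) (g : ι → κ) (hg : Function.Injective g) : Tab X κ where
  col := g ∘ T.col
  row := T.row
  inj x y h₁ h₂ := T.inj x y (hg h₁) h₂
  lt x := by
    refine lt_of_lt_of_le (T.lt x) (le_of_eq ?_)
    simp [hg.eq_iff]

lemma recol_cperm (T : Tab X ι) (g : ι → κ) (hg : Function.Injective g) :
    (T.recol g hg).cperm = T.cperm := by
  ext c
  simp [recol, hg.eq_iff]

lemma len_recol (T : Tab X ι) (g : ι → κ) (hg : Function.Injective g) (q : ι) :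
    (T.recol g hg).len (g q) = T.len q := by
  simp [recol, len, hg.eq_iff]

lemma len_map (T : Tab X ι) (φ : Y ≃ X) (q : ι) : (T.map φ).len q = T.len q := by
  refine Finset.card_equiv φ ?_
  intro y
  exact ⟨fun hy => Finset.mem_filter.mpr ⟨Finset.mem_univ _, (Finset.mem_filter.mp hy).2⟩,
    fun hy => Finset.mem_filter.mpr ⟨Finset.mem_univ _, (Finset.mem_filter.mp hy).2⟩⟩

lemma len_sum_inl {O I : Type} [Fintype O] [DecidableEq O] [Fintype I] [DecidableEq I]
    (A : Tab O ι) (B : Tab I κ) (q : ι) : (A.sum B).len (Sum.inl q) = A.len q := by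
  rw [len, card_filter_sum]
  simp [sum, len]

lemma len_sum_inr {O I : Type} [Fintype O] [DecidableEq O] [Fintype I] [DecidableEq I]
    (A : Tab O ι) (B : Tab I κ) (q : κ) : (A.sum B).len (Sum.inr q) = B.len q := by
  rw [len, card_filter_sum]
  simp [sum, len]

lemma sum_map_cperm {β : Type} [AddCommMonoid β] (T : Tab X ι) (φ : Y ≃ X)
    (F : Equiv.Perm Y → β) :
    ∑ c ∈ (T.map φ).cperm, F c = ∑ c ∈ T.cperm, F (φ.symm.permCongr c) := by
  refine Finset.sum_equiv φ.permCongr ?_ ?_
  · intro c
    simp only [mem_cperm, map, Function.comp_apply, Equiv.permCongr_apply]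
    constructor
    · intro h x
      simpa using h (φ.symm x)
    · intro h y
      simpa using h (φ y)
  · intro c _
    congr 1
    ext y
    simp [Equiv.permCongr_apply]

lemma exists_row_eq (T : Tab X ι) (T' : Tab X κ)
    (h : ∀ x y, T'.col x = T'.col y ↔ T.col x = T.col y) :
    T'.cperm = T.cperm ∧ ∃ c₀ ∈ T.cperm, T'.row = T.row ∘ c₀ := by
  have hlen : ∀ x, T'.len (T'.col x) = T.len (T.col x) := by
    intro x
    simp [len, h]
  refine ⟨by ext c; simp [h], ?_⟩
  have hex : ∀ x, ∃ y, T.col y = T.col x ∧ T.row y = T'.row x := by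
    intro x
    have hx := T'.row_lt_len x
    rw [hlen] at hx
    have hcard : ((univ.filter fun y => T.col y = T.col x).image T.row).card = T.len (T.col x) := by
      rw [Finset.card_image_of_injOn]
      · rfl
      · intro a ha b hb hab
        simp only [Finset.mem_coe, mem_filter, mem_univ, true_and] at ha hb
        exact T.inj a b (ha.trans hb.symm) hab
    have hsub : (univ.filter fun y => T.col y = T.col x).image T.row = range (T.len (T.col x)) := by
      refine Finset.eq_of_subset_of_card_le ?_ (by rw [hcard, card_range])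
      intro r hr
      simp only [mem_image, mem_filter, mem_univ, true_and] at hr
      obtain ⟨y, hy, rfl⟩ := hr
      rw [← hy]
      exact mem_range.mpr (T.row_lt_len y)
    have := mem_range.mpr hx
    rw [← hsub] at this
    simpa using this
  choose g hg₁ hg₂ using hex
  have hgi : Function.Injective g := by
    intro x y hxy
    refine T'.inj x y ((h x y).mpr ?_) ?_
    · rw [← hg₁ x, ← hg₁ y, hxy]
    · rw [← hg₂ x, ← hg₂ y, hxy]
  refine ⟨Equiv.ofBijective g (Finite.injective_iff_bijective.mp hgi), by simp [hg₁], ?_⟩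
  funext x
  simp [hg₂]

end Tab

section Congr

variable {ι₁ ι₂ ι₃ κ₁ κ₂ κ₃ : Type} [DecidableEq ι₁] [DecidableEq ι₂] [DecidableEq ι₃]
  [DecidableEq κ₁] [DecidableEq κ₂] [DecidableEq κ₃]

lemma sum_cperm_translate {β : Type} [AddCommMonoid β] {T : Tab X ι} {c₀ : Equiv.Perm X}
    (h₀ : c₀ ∈ T.cperm) (F : Equiv.Perm X → β) :
    ∑ c ∈ T.cperm, F (c₀ * c) = ∑ c ∈ T.cperm, F c := by
  refine Finset.sum_equiv (Equiv.mulLeft c₀) ?_ (fun c _ => rfl)
  intro c
  constructor
  · intro h; exact Tab.mul_mem_cperm h₀ h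
  · intro h
    have := Tab.mul_mem_cperm (Tab.inv_mem_cperm h₀) h
    simpa using this

lemma kpoly_congr {U : Tab X ι₁} {V : Tab X ι₂} {W : Tab X ι₃}
    {U' : Tab X κ₁} {V' : Tab X κ₂} {W' : Tab X κ₃}
    (hU : ∀ x y, U'.col x = U'.col y ↔ U.col x = U.col y)
    (hV : ∀ x y, V'.col x = V'.col y ↔ V.col x = V.col y)
    (hW : ∀ x y, W'.col x = W'.col y ↔ W.col x = W.col y) :
    ∃ s : ℚ, s ≠ 0 ∧ kpoly U' V' W' = C s * kpoly U V W := by
  obtain ⟨eU, a, ha, rU⟩ := U.exists_row_eq U' hU
  obtain ⟨eV, b, hb, rV⟩ := V.exists_row_eq V' hV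
  obtain ⟨eW, d, hd, rW⟩ := W.exists_row_eq W' hW
  refine ⟨sg a * sg b * sg d,
    mul_ne_zero (mul_ne_zero (sg_ne_zero a) (sg_ne_zero b)) (sg_ne_zero d), ?_⟩
  simp only [kpoly, eU, eV, eW, rU, rV, rW, Function.comp_apply, Finset.sum_product,
    Finset.mul_sum, ← mul_assoc, ← map_mul]
  symm
  rw [← sum_cperm_translate ha]
  refine Finset.sum_congr rfl fun c₁ _ => ?_
  rw [← sum_cperm_translate hb]
  refine Finset.sum_congr rfl fun c₂ _ => ?_
  rw [← sum_cperm_translate hd]
  refine Finset.sum_congr rfl fun c₃ _ => ?_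
  congr 2
  have ha' := sg_mul_self a
  have hb' := sg_mul_self b
  have hd' := sg_mul_self d
  simp only [sg_mul]
  linear_combination
    (sg b * sg b * (sg d * sg d) * (sg c₁ * sg c₂ * sg c₃)) * ha' +
    ((sg d * sg d) * (sg c₁ * sg c₂ * sg c₃)) * hb' + (sg c₁ * sg c₂ * sg c₃) * hd'

theorem Pos.congr {U : Tab X ι₁} {V : Tab X ι₂} {W : Tab X ι₃}
    {U' : Tab X κ₁} {V' : Tab X κ₂} {W' : Tab X κ₃} (h : Pos U V W)
    (hU : ∀ x y, U'.col x = U'.col y ↔ U.col x = U.col y)
    (hV : ∀ x y, V'.col x = V'.col y ↔ V.col x = V.col y)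
    (hW : ∀ x y, W'.col x = W'.col y ↔ W.col x = W.col y) : Pos U' V' W' := by
  obtain ⟨s, hs, e⟩ := kpoly_congr hU hV hW
  unfold Pos at *
  rw [e]
  exact mul_ne_zero (by simpa using hs) h

end Congr

/-- A single column. -/
def colTab (h : ℕ) : Tab (Fin h) Unit where
  col _ := ()
  row j := j
  inj x y _ e := Fin.ext e
  lt x := by simpa using x.2

/-- Numbering the columns of a segment tableau. -/
def segIdx (n : ℕ) : Unit ⊕ Fin n → Fin (n + 1) := Sum.elim (fun _ => 0) Fin.succ

lemma segIdx_injective (n : ℕ) : Function.Injective (segIdx n) := by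
  rintro (a | a) (b | b) hab
  · rfl
  · exact absurd hab.symm (Fin.succ_ne_zero b)
  · exact absurd hab (Fin.succ_ne_zero a)
  · exact congrArg Sum.inr (Fin.succ_injective _ hab)

/-- The columns are consecutive segments of the given lengths. -/
def segTab : (L : List ℕ) → Tab (Fin L.sum) (Fin L.length)
  | [] => { col := fun x => x.elim0, row := fun x => x.elim0,
            inj := fun x => x.elim0, lt := fun x => x.elim0 }
  | h :: t =>
    (((colTab h).sum (segTab t)).recol (segIdx t.length) (segIdx_injective _)).map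
      (finSumFinEquiv (m := h) (n := t.sum)).symm

lemma len_segTab : ∀ (L : List ℕ) (q : Fin L.length), (segTab L).len q = L[(q : ℕ)]
  | [], q => q.elim0
  | h :: t, q => by
    refine Fin.cases ?_ (fun r => ?_) q
    · refine (Tab.len_map _ _ _).trans ?_
      refine (Tab.len_recol _ (segIdx t.length) (segIdx_injective _) (Sum.inl ())).trans ?_
      rw [Tab.len_sum_inl]
      simp [Tab.len, colTab]
    · refine (Tab.len_map _ _ _).trans ?_
      refine (Tab.len_recol _ (segIdx t.length) (segIdx_injective _) (Sum.inr r)).trans ?_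
      rw [Tab.len_sum_inr, len_segTab t r]
      simp

/-- The column number in a segment tableau. -/
def segCol : List ℕ → ℕ → ℕ
  | [], _ => 0
  | h :: t, j => if j < h then 0 else segCol t (j - h) + 1

lemma segTab_col : ∀ (L : List ℕ) (j : Fin L.sum), ((segTab L).col j : ℕ) = segCol L j
  | [], j => j.elim0
  | h :: t, j => by
    refine Fin.addCases (m := h) (n := t.sum) (fun i => ?_) (fun i => ?_) j
    · show ((segIdx t.length (Sum.map (colTab h).col (segTab t).col
        (finSumFinEquiv.symm (Fin.castAdd t.sum i))) : Fin _) : ℕ) = segCol (h :: t) _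
      rw [finSumFinEquiv_symm_apply_castAdd]
      simp [segCol, segIdx]
    · show ((segIdx t.length (Sum.map (colTab h).col (segTab t).col
        (finSumFinEquiv.symm (Fin.natAdd h i))) : Fin _) : ℕ) = segCol (h :: t) _
      rw [finSumFinEquiv_symm_apply_natAdd]
      simp [segCol, segIdx, segTab_col t i]

end Vale.Agent.P197
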