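import Vale.Agent.P197.GlueThm
import Vale.Agent.P197.PathBase

/-!
Positivity of two staircases against every tableau with columns of length at most `m`.
-/

namespace Vale.Agent.P197

open Finset MvPolynomial

/-- The cells of the staircase with `m` rows. -/
abbrev Cell (m : ℕ) := {p : Fin m × Fin m // (p.1 : ℕ) + p.2 < m}

/-- The staircase whose columns are indexed by the first coordinate. -/
def rowT (m : ℕ) : Tab (Cell m) ℕ where
  col x := x.1.1
  row x := m - 1 - ((x.1.1 : ℕ) + x.1.2)
  inj x y h₁ h₂ := by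
    have := x.2; have := y.2
    refine Subtype.ext (Prod.ext (Fin.ext h₁) (Fin.ext ?_))
    omega
  lt x := by
    have := x.2
    refine lt_of_lt_of_le (Nat.lt_succ_self _)
      (le_trans (le_of_eq (Finset.card_range _).symm)
      (Finset.card_le_card_of_injOn
        (fun r => if h : (x.1.1 : ℕ) + (m - 1 - x.1.1 - r) < m
          then ⟨(x.1.1, ⟨m - 1 - x.1.1 - r, by omega⟩), h⟩ else x) ?_ ?_))
    · intro r hr
      simp only [Finset.mem_coe, mem_filter, mem_univ, true_and]
      split_ifs <;> rfl
    · intro r hr r' hr' e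
      simp only [coe_range, Set.mem_Iio] at hr hr'
      dsimp only at e
      rw [dif_pos (by omega), dif_pos (by omega)] at e
      simp only [Subtype.mk.injEq, Prod.mk.injEq, Fin.mk.injEq] at e
      omega

/-- The staircase whose columns are indexed by the second coordinate. -/
def colT (m : ℕ) : Tab (Cell m) ℕ where
  col x := x.1.2
  row x := m - 1 - ((x.1.1 : ℕ) + x.1.2)
  inj x y h₁ h₂ := by
    have := x.2; have := y.2
    refine Subtype.ext (Prod.ext (Fin.ext ?_) (Fin.ext h₁))
    omega
  lt x := by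
    have := x.2
    refine lt_of_lt_of_le (Nat.lt_succ_self _)
      (le_trans (le_of_eq (Finset.card_range _).symm)
      (Finset.card_le_card_of_injOn
        (fun r => if h : (m - 1 - x.1.2 - r) + (x.1.2 : ℕ) < m
          then ⟨(⟨m - 1 - x.1.2 - r, by omega⟩, x.1.2), h⟩ else x) ?_ ?_))
    · intro r hr
      simp only [Finset.mem_coe, mem_filter, mem_univ, true_and]
      split_ifs <;> rfl
    · intro r hr r' hr' e
      simp only [coe_range, Set.mem_Iio] at hr hr'
      dsimp only at e
      rw [dif_pos (by omega), dif_pos (by omega)] at e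
      simp only [Subtype.mk.injEq, Prod.mk.injEq, Fin.mk.injEq] at e
      omega

/-- The outer band, first tableau. -/
def bandU (r : ℕ) : Tab (Fin (2 * r + 1)) ℕ where
  col j := (j : ℕ) / 2
  row j := (j : ℕ) % 2
  inj x y h₁ h₂ := Fin.ext (by omega)
  lt x := by
    refine lt_of_lt_of_le (Nat.lt_succ_self _)
      (le_trans (le_of_eq (Finset.card_range _).symm)
      (Finset.card_le_card_of_injOn (fun s => ⟨(x : ℕ) - (x : ℕ) % 2 + min s ((x : ℕ) % 2),
        by omega⟩) ?_ ?_))
    · intro s hs
      simp only [Finset.mem_coe, mem_filter, mem_univ, true_and]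
      omega
    · intro s hs s' hs' e
      simp only [coe_range, Set.mem_Iio] at hs hs'
      simp only [Fin.mk.injEq] at e
      omega

/-- The outer band, second tableau. -/
def bandV (r : ℕ) : Tab (Fin (2 * r + 1)) ℕ where
  col j := r - ((j : ℕ) + 1) / 2
  row j := (j : ℕ) % 2
  inj x y h₁ h₂ := by
    have := x.2; have := y.2
    exact Fin.ext (by omega)
  lt x := by
    have := x.2
    refine lt_of_lt_of_le (Nat.lt_succ_self _)
      (le_trans (le_of_eq (Finset.card_range _).symm)
      (Finset.card_le_card_of_injOn (fun s => ⟨(x : ℕ) + min s ((x : ℕ) % 2),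
        by omega⟩) ?_ ?_))
    · intro s hs
      simp only [Finset.mem_coe, mem_filter, mem_univ, true_and]
      omega
    · intro s hs s' hs' e
      simp only [coe_range, Set.mem_Iio] at hs hs'
      simp only [Fin.mk.injEq] at e
      omega

lemma bandU_len (r i : ℕ) (hi : i < r) : (bandU r).len i = 2 := by
  have : (univ.filter fun j : Fin (2 * r + 1) => (bandU r).col j = i) =
      {⟨2 * i, by omega⟩, ⟨2 * i + 1, by omega⟩} := by
    ext j
    rw [mem_filter]
    simp only [bandU, mem_univ, true_and, mem_insert, mem_singleton, Fin.ext_iff]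
    omega
  rw [Tab.len, this]
  exact Finset.card_pair (by simp [Fin.ext_iff])

lemma bandV_len (r q : ℕ) (hq : q < r) : (bandV r).len q = 2 := by
  have : (univ.filter fun j : Fin (2 * r + 1) => (bandV r).col j = q) =
      {⟨2 * (r - q) - 1, by omega⟩, ⟨2 * (r - q), by omega⟩} := by
    ext j
    have := j.2
    rw [mem_filter]
    simp only [bandV, mem_univ, true_and, mem_insert, mem_singleton, Fin.ext_iff]
    omega
  rw [Tab.len, this]
  exact Finset.card_pair (by simp [Fin.ext_iff]; omega)

/-- Splitting the staircase into its outer band and a smaller staircase. -/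
def bandEquiv (r : ℕ) : Cell (r + 1) ≃ Fin (2 * r + 1) ⊕ Cell (r - 1) where
  toFun x :=
    if h : r ≤ (x.1.1 : ℕ) + x.1.2 + 1 then
      Sum.inl ⟨2 * (x.1.1 : ℕ) + (r - ((x.1.1 : ℕ) + x.1.2)), by
        have := x.2; omega⟩
    else Sum.inr ⟨(⟨x.1.1, by omega⟩, ⟨x.1.2, by omega⟩), by simp only; omega⟩
  invFun y := match y with
    | Sum.inl j => ⟨(⟨(j : ℕ) / 2, by omega⟩, ⟨r - ((j : ℕ) + 1) / 2, by omega⟩), by
        have := j.2; simp only; omega⟩
    | Sum.inr x => ⟨(⟨x.1.1, by omega⟩, ⟨x.1.2, by omega⟩), by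
        have := x.2; simp only; omega⟩
  left_inv x := by
    have := x.2
    by_cases h : r ≤ (x.1.1 : ℕ) + x.1.2 + 1
    · simp only [dif_pos h]
      refine Subtype.ext (Prod.ext (Fin.ext ?_) (Fin.ext ?_)) <;> simp only <;> omega
    · simp only [dif_neg h]
  right_inv y := by
    rcases y with j | x
    · have := j.2
      have h : r ≤ (j : ℕ) / 2 + (r - ((j : ℕ) + 1) / 2) + 1 := by omega
      simp only [dif_pos h]
      refine congrArg Sum.inl (Fin.ext ?_)
      simp only
      omega
    · have := x.2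
      have h : ¬ r ≤ (x.1.1 : ℕ) + x.1.2 + 1 := by omega
      simp only [dif_neg h]

lemma sum_col_eq {X : Type} [Fintype X] [DecidableEq X] (col : X → ℕ) (Z O : Finset X)
    (h : ∀ q, (Z.filter fun x => col x = q).card = (O.filter fun x => col x = q).card) :
    Z.card = O.card ∧ ∑ x ∈ Z, col x = ∑ x ∈ O, col x := by
  have e : ∀ (S : Finset X) (g : ℕ → ℕ), ∑ x ∈ S, g (col x) =
      ∑ q ∈ univ.image col, (S.filter fun x => col x = q).card * g q := by
    intro S g
    rw [← Finset.sum_fiberwise_of_maps_to (g := col) (t := univ.image col)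
      (fun x _ => mem_image_of_mem _ (mem_univ x))]
    refine Finset.sum_congr rfl fun q _ => ?_
    rw [Finset.sum_congr rfl (g := fun _ => g q) (fun x hx => by rw [(mem_filter.mp hx).2]),
      Finset.sum_const, smul_eq_mul]
  refine ⟨?_, ?_⟩
  · have hz := e Z fun _ => 1
    have ho := e O fun _ => 1
    simp only [Finset.sum_const, smul_eq_mul, mul_one, h] at hz ho
    rw [hz, ho]
  · rw [e Z fun q => q, e O fun q => q]
    simp only [h]

lemma band_uniq (r : ℕ) (Z : Finset (Fin (2 * r + 1) ⊕ Cell (r - 1)))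
    (h₁ : ∀ q, (Z.filter fun x => ((bandU r).stack (rowT (r - 1))).col x = q).card =
      (bandU r).len q)
    (h₂ : ∀ q, (Z.filter fun x => ((bandV r).stack (colT (r - 1))).col x = q).card =
      (bandV r).len q) :
    Z = (univ : Finset (Fin (2 * r + 1))).map ⟨Sum.inl, Sum.inl_injective⟩ := by
  classical
  set O := (univ : Finset (Fin (2 * r + 1))).map
    (⟨Sum.inl, Sum.inl_injective⟩ : Fin (2 * r + 1) ↪ Fin (2 * r + 1) ⊕ Cell (r - 1))
  set cU := ((bandU r).stack (rowT (r - 1))).col
  set cV := ((bandV r).stack (colT (r - 1))).col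
  obtain ⟨hc, hu⟩ := sum_col_eq cU Z O fun q => by
    rw [h₁, Finset.filter_map, Finset.card_map]
    rfl
  obtain ⟨-, hv⟩ := sum_col_eq cV Z O fun q => by
    rw [h₂, Finset.filter_map, Finset.card_map]
    rfl
  have hw : ∑ x ∈ Z, (cU x + cV x + 1) = ∑ x ∈ O, (cU x + cV x + 1) := by
    simp only [Finset.sum_add_distrib, hu, hv, Finset.sum_const, hc]
  have hsd : (Z \ O).card = (O \ Z).card := by
    have a₁ := Finset.card_sdiff_add_card_inter Z O
    have a₂ := Finset.card_sdiff_add_card_inter O Z
    rw [Finset.inter_comm] at a₂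
    omega
  have e₁ := Finset.sum_inter_add_sum_sdiff Z O (fun x => cU x + cV x + 1)
  have e₂ := Finset.sum_inter_add_sum_sdiff O Z (fun x => cU x + cV x + 1)
  rw [Finset.inter_comm] at e₂
  have hlo : (O \ Z).card * r ≤ ∑ x ∈ O \ Z, (cU x + cV x + 1) := by
    refine le_trans (le_of_eq (by simp)) (Finset.card_nsmul_le_sum _ _ r ?_)
    intro x hx
    obtain ⟨j, -, rfl⟩ := Finset.mem_map.mp (mem_sdiff.mp hx).1
    have := j.2
    show r ≤ (j : ℕ) / 2 + (r - ((j : ℕ) + 1) / 2) + 1
    omega
  have hhi : ∑ x ∈ Z \ O, (cU x + cV x + 1 + 1) ≤ (Z \ O).card * r := by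
    refine le_trans (Finset.sum_le_card_nsmul _ _ r ?_) (le_of_eq (by simp))
    intro x hx
    rcases x with j | c
    · exact absurd (Finset.mem_map.mpr ⟨j, mem_univ j, rfl⟩) (mem_sdiff.mp hx).2
    · have := c.2
      show (c.1.1 : ℕ) + c.1.2 + 1 + 1 ≤ r
      omega
  rw [Finset.sum_add_distrib, Finset.sum_const, smul_eq_mul, mul_one] at hhi
  rw [hsd] at hhi
  have h0 : (Z \ O).card = 0 := by omega
  exact Finset.eq_of_subset_of_card_le
    (Finset.sdiff_eq_empty_iff_subset.mp (Finset.card_eq_zero.mp h0)) hc.ge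

lemma Tab.len_stack {O I ι : Type} [Fintype O] [DecidableEq O] [Fintype I] [DecidableEq I]
    [DecidableEq ι] (A : Tab O ι) (B : Tab I ι) (q : ι) :
    (A.stack B).len q = A.len q + B.len q := by
  rw [Tab.len, card_filter_sum]
  rfl

/-- Triangular numbers. -/
def tri : ℕ → ℕ
  | 0 => 0
  | m + 1 => tri m + (m + 1)

lemma two_tri : ∀ m, 2 * tri m = m * (m + 1)
  | 0 => rfl
  | m + 1 => by rw [tri, Nat.mul_add, two_tri m]; ring

lemma tri_step (r : ℕ) : tri (r + 1) = tri (r - 1) + (2 * r + 1) := by
  cases r with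
  | zero => rfl
  | succ k => simp only [tri, Nat.add_sub_cancel]; omega

lemma exists_between_sum : ∀ (K : ℕ) (f g : Fin K → ℕ) (t : ℕ),
    (∀ q, f q ≤ g q) → ∑ q, f q ≤ t → t ≤ ∑ q, g q →
    ∃ d : Fin K → ℕ, (∀ q, f q ≤ d q ∧ d q ≤ g q) ∧ ∑ q, d q = t
  | 0, f, g, t, _, _, h₂ => by
    refine ⟨f, fun q => q.elim0, ?_⟩
    simp at h₂ ⊢
    omega
  | K + 1, f, g, t, hfg, h₁, h₂ => by
    rw [Fin.sum_univ_succ] at h₁ h₂
    set d₀ := min (g 0) (t - ∑ q : Fin K, f q.succ) with hd₀
    have := hfg 0
    have : ∑ q : Fin K, f q.succ ≤ ∑ q : Fin K, g q.succ := Finset.sum_le_sum fun q _ => hfg _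
    obtain ⟨d, hd, hs⟩ := exists_between_sum K (f ∘ Fin.succ) (g ∘ Fin.succ) (t - d₀)
      (fun q => hfg _) (by simp only [Function.comp_apply]; omega)
      (by simp only [Function.comp_apply]; omega)
    refine ⟨Fin.cons d₀ d, fun q => ?_, ?_⟩
    · refine Fin.cases ?_ ?_ q
      · simp only [Fin.cons_zero]; omega
      · intro i; simpa using hd i
    · rw [Fin.sum_univ_succ]
      simp only [Fin.cons_zero, Fin.cons_succ, hs]
      omega

lemma exists_peel (r K : ℕ) (c : Fin K → ℕ) (hc : ∑ q, c q = tri (r + 1))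
    (hle : ∀ q, c q ≤ r + 1) :
    ∃ d : Fin K → ℕ, (∀ q, c q ≤ d q + (r - 1) ∧ d q ≤ c q ∧ d q ≤ 4) ∧
      ∑ q, d q = 2 * r + 1 := by
  have ht := two_tri (r + 1)
  have hlow : ∑ q, (c q - (r - 1)) ≤ 2 * r + 1 := by
    rcases Nat.eq_zero_or_pos r with rfl | hr
    · simpa [tri] using hc.le
    · have : (r + 1) * ∑ q, (c q - (r - 1)) ≤ (r + 1) * (r + 2) := by
        rw [← ht, ← hc, Finset.mul_sum, Finset.mul_sum]
        refine Finset.sum_le_sum fun q _ => ?_
        have := hle q
        rcases (show c q = r + 1 ∨ c q = r ∨ c q - (r - 1) = 0 by omega) with e | e | e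
        · rw [e, show r + 1 - (r - 1) = 2 by omega]; omega
        · rw [e, show r - (r - 1) = 1 by omega]; omega
        · rw [e]; simp
      have := Nat.le_of_mul_le_mul_left this (by omega)
      omega
  have hupp : 2 * r + 1 ≤ ∑ q, min 4 (c q) := by
    rcases Nat.lt_or_ge r 4 with hr | hr
    · have : ∑ q, min 4 (c q) = ∑ q, c q :=
        Finset.sum_congr rfl fun q _ => by have := hle q; omega
      rw [this, hc, tri_step]
      omega
    · have : 4 * ∑ q, c q ≤ (r + 1) * ∑ q, min 4 (c q) := by
        rw [Finset.mul_sum, Finset.mul_sum]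
        refine Finset.sum_le_sum fun q _ => ?_
        rcases Nat.lt_or_ge (c q) 4 with e | e
        · rw [min_eq_right e.le]
          exact Nat.mul_le_mul_right _ (by omega)
        · rw [min_eq_left e, Nat.mul_comm (r + 1)]
          exact Nat.mul_le_mul_left 4 (hle q)
      rw [hc] at this
      have h4 : (r + 1) * (2 * (r + 2)) ≤ (r + 1) * ∑ q, min 4 (c q) := by
        refine le_trans (le_of_eq ?_) this
        linarith
      have := Nat.le_of_mul_le_mul_left h4 (by omega)
      omega
  obtain ⟨d, hd, hs⟩ := exists_between_sum K (fun q => c q - (r - 1)) (fun q => min 4 (c q))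
    (2 * r + 1) (fun q => by have := hle q; omega) hlow hupp
  exact ⟨d, fun q => by have := hd q; omega, hs⟩

lemma pos_isEmpty {X ι₁ ι₂ ι₃ : Type} [Fintype X] [DecidableEq X] [IsEmpty X] [DecidableEq ι₁]
    [DecidableEq ι₂] [DecidableEq ι₃] (U : Tab X ι₁) (V : Tab X ι₂) (W : Tab X ι₃) :
    Pos U V W := by
  have h : ∀ {κ : Type} [DecidableEq κ] (T : Tab X κ), T.cperm = {1} := by
    intro κ _ T
    exact Finset.eq_singleton_iff_unique_mem.mpr ⟨T.one_mem_cperm, fun c _ => Subsingleton.elim _ _⟩
  simp [Pos, kpoly, h]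

/-- **Two staircases against every tableau with columns of length at most `m`.** -/
theorem pos_staircase : ∀ (m K : ℕ) (c : Fin K → ℕ), ∑ q, c q = tri m → (∀ q, c q ≤ m) →
    ∃ W : Tab (Cell m) (Fin K), (∀ q, W.len q = c q) ∧ Pos (rowT m) (colT m) W
  | 0, K, c, hc, hle => by
    haveI : IsEmpty (Cell 0) := ⟨fun x => x.1.1.elim0⟩
    refine ⟨{ col := fun x => isEmptyElim x, row := fun x => isEmptyElim x,
              inj := fun x => isEmptyElim x, lt := fun x => isEmptyElim x }, fun q => ?_,
      pos_isEmpty _ _ _⟩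
    have := hle q
    simp only [Tab.len, Finset.univ_eq_empty, Finset.filter_empty, Finset.card_empty]
    omega
  | r + 1, K, c, hc, hle => by
    obtain ⟨d, hd, hds⟩ := exists_peel r K c hc hle
    obtain ⟨W', hW', hP'⟩ := pos_staircase (r - 1) K (fun q => c q - d q) (by
        have h : ∑ q, (c q - d q) + ∑ q, d q = ∑ q, c q := by
          rw [← Finset.sum_add_distrib]
          exact Finset.sum_congr rfl fun q _ => Nat.sub_add_cancel (hd q).2.1
        rw [hds, hc, tri_step] at h
        omega)
      (fun q => by have := hd q; omega)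
    set L := List.ofFn d
    have hn : 2 * r + 1 = L.sum := by rw [List.sum_ofFn, hds]
    have hlen : L.length = K := List.length_ofFn
    have hL : ∀ h ∈ L, h ≤ 4 := by
      intro h hh
      obtain ⟨q, rfl⟩ := List.mem_ofFn.mp hh
      exact (hd q).2.2
    have hO := pos_path r (bandU r) (bandV r) (fun x y => Iff.rfl) (fun x y => by
      have := x.2; have := y.2
      simp only [bandV]; omega) L hL hn
    set A₃ := (segAt L hn).recol (Fin.cast hlen) (Fin.cast_injective hlen)
    have hA₃ : ∀ q, A₃.len q = d q := by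
      intro q
      refine (Tab.len_recol (segAt L hn) (Fin.cast hlen) (Fin.cast_injective hlen)
        (Fin.cast hlen.symm q)).trans ?_
      rw [segAt, Tab.len_map, len_segTab]
      simp [L]
    have hO' : Pos (bandU r) (bandV r) A₃ :=
      hO.congr (fun _ _ => Iff.rfl) (fun _ _ => Iff.rfl)
        (fun x y => (Fin.cast_injective hlen).eq_iff)
    have hglue := Pos.glue (bandU r) (rowT (r - 1)) (bandV r) (colT (r - 1)) A₃ W' 2
      (fun o => Nat.mod_lt _ (by omega))
      (fun i => bandU_len r _ (by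
        show (i.1.1 : ℕ) < r
        omega))
      (fun o => Nat.mod_lt _ (by omega))
      (fun i => bandV_len r _ (by
        show (i.1.2 : ℕ) < r
        omega))
      (band_uniq r) hO' hP'
    refine ⟨(A₃.stack W').map (bandEquiv r), fun q => ?_, ?_⟩
    · rw [Tab.len_map, Tab.len_stack, hA₃, hW']
      have := hd q
      omega
    · have hU : ∀ y, (rowT (r + 1)).col ((bandEquiv r).symm y) =
          ((bandU r).stack (rowT (r - 1))).col y := by
        rintro (j | x) <;> rfl
      have hV : ∀ y, (colT (r + 1)).col ((bandEquiv r).symm y) =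
          ((bandV r).stack (colT (r - 1))).col y := by
        rintro (j | x) <;> rfl
      refine (hglue.map (bandEquiv r)).congr (fun x y => ?_) (fun x y => ?_) (fun x y => Iff.rfl)
      · simp only [Tab.map, Function.comp_apply, ← hU, Equiv.symm_apply_apply]
      · simp only [Tab.map, Function.comp_apply, ← hV, Equiv.symm_apply_apply]

end Vale.Agent.P197
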