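import Vale.Agent.P197.Basic

/-!
Juxtaposition of column structures, and multiplicativity of the Kronecker polynomial.
-/

namespace Vale.Agent.P197

open Finset MvPolynomial

variable {O I : Type} [Fintype O] [DecidableEq O] [Fintype I] [DecidableEq I]
  {ι κ : Type} [DecidableEq ι] [DecidableEq κ]

lemma card_filter_sum (p : O ⊕ I → Prop) [DecidablePred p] :
    (univ.filter p).card =
      (univ.filter fun o : O => p (Sum.inl o)).card +
      (univ.filter fun i : I => p (Sum.inr i)).card := by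
  rw [Finset.card_filter, Finset.card_filter, Finset.card_filter, Fintype.sum_sum_type]

namespace Tab

/-- Juxtaposition of two column structures. -/
def sum (A : Tab O ι) (B : Tab I κ) : Tab (O ⊕ I) (ι ⊕ κ) where
  col := Sum.map A.col B.col
  row := Sum.elim A.row B.row
  inj x y h₁ h₂ := by
    rcases x with x | x <;> rcases y with y | y <;> simp at h₁ h₂
    · rw [A.inj x y h₁ h₂]
    · rw [B.inj x y h₁ h₂]
  lt x := by
    rw [card_filter_sum]
    rcases x with x | x
    · simpa using A.lt x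
    · simpa using B.lt x

lemma sum_cperm (A : Tab O ι) (B : Tab I κ) :
    (A.sum B).cperm =
      (A.cperm ×ˢ B.cperm).image fun p => Equiv.sumCongr p.1 p.2 := by
  ext c
  simp only [mem_cperm, mem_image, mem_product, Prod.exists]
  constructor
  · intro h
    have hc : c ∈ (Equiv.Perm.sumCongrHom O I).range := by
      refine Equiv.Perm.mem_sumCongrHom_range_of_perm_mapsTo_inl ?_
      rintro _ ⟨o, rfl⟩
      have := h (Sum.inl o)
      cases hh : c (Sum.inl o) with
      | inl o' => exact ⟨o', rfl⟩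
      | inr i => simp [hh, Tab.sum] at this
    obtain ⟨⟨a, b⟩, rfl⟩ := hc
    refine ⟨a, b, ⟨fun o => ?_, fun i => ?_⟩, rfl⟩
    · simpa [Tab.sum] using h (Sum.inl o)
    · simpa [Tab.sum] using h (Sum.inr i)
  · rintro ⟨a, b, ⟨ha, hb⟩, rfl⟩ x
    rcases x with x | x <;> simp [Tab.sum, ha, hb]

end Tab

lemma sg_sumCongr (a : Equiv.Perm O) (b : Equiv.Perm I) :
    sg (Equiv.sumCongr a b) = sg a * sg b := by
  simp [sg, Equiv.Perm.sign_sumCongr]

lemma sumCongr_injective :
    Function.Injective fun p : Equiv.Perm O × Equiv.Perm I => Equiv.sumCongr p.1 p.2 :=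
  Equiv.Perm.sumCongrHom_injective

section

variable {ι₁ ι₂ ι₃ κ₁ κ₂ κ₃ : Type} [DecidableEq ι₁] [DecidableEq ι₂] [DecidableEq ι₃]
  [DecidableEq κ₁] [DecidableEq κ₂] [DecidableEq κ₃]

theorem kpoly_sum (U : Tab O ι₁) (V : Tab O ι₂) (W : Tab O ι₃)
    (U' : Tab I κ₁) (V' : Tab I κ₂) (W' : Tab I κ₃) :
    kpoly (U.sum U') (V.sum V') (W.sum W') = kpoly U V W * kpoly U' V' W' := by
  simp only [kpoly, Finset.sum_product, Tab.sum_cperm]
  rw [Finset.sum_image sumCongr_injective.injOn, Finset.sum_product, Finset.sum_mul]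
  refine Finset.sum_congr rfl fun a₁ _ => ?_
  rw [Finset.mul_sum]
  refine Finset.sum_congr rfl fun b₁ _ => ?_
  rw [Finset.sum_image sumCongr_injective.injOn, Finset.sum_product, Finset.sum_mul]
  refine Finset.sum_congr rfl fun a₂ _ => ?_
  rw [Finset.mul_sum]
  refine Finset.sum_congr rfl fun b₂ _ => ?_
  rw [Finset.sum_image sumCongr_injective.injOn, Finset.sum_product, Finset.sum_mul]
  refine Finset.sum_congr rfl fun a₃ _ => ?_
  rw [Finset.mul_sum]
  refine Finset.sum_congr rfl fun b₃ _ => ?_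
  simp only [Fintype.prod_sum_type, Tab.sum, sg_sumCongr, map_mul, Equiv.sumCongr_apply,
    Sum.map_inl, Sum.map_inr, Sum.elim_inl, Sum.elim_inr]
  ring

theorem Pos.sum {U : Tab O ι₁} {V : Tab O ι₂} {W : Tab O ι₃}
    {U' : Tab I κ₁} {V' : Tab I κ₂} {W' : Tab I κ₃}
    (h : Pos U V W) (h' : Pos U' V' W') : Pos (U.sum U') (V.sum V') (W.sum W') := by
  unfold Pos at *
  rw [kpoly_sum]
  exact mul_ne_zero h h'

end

end Vale.Agent.P197
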